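import Vale.Agent.P251.X.KExists

/-!
# P241, block EX: the associative monoid `A_n = C_0 ⊗ … ⊗ C_{n-1}`, `C_i = MU/v_i`

`AD D p k` : the stage `n = k + 1`. `Q = MU^{⊗ (k+1)} = Am D.R (k+1)` maps centrally to `A`, the
even homotopy of `A` is `Cob Laz k / I_{k+1}`, the odd homotopy vanishes, and `co : A ⟶ A ⊗ Q` is
a `Q`-linear section of the action.
-/

open CategoryTheory MonoidalCategory Limits Pretriangulated MonObj

set_option linter.unusedSectionVars false

universe v u

namespace Vale.Agent.P241.EX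

open Vale.Agent.P251.T Vale.Agent.P251.M Vale.Agent.P251.M.EvenSpheres Vale.Agent.P251.S
  Vale.Agent.P251.F Vale.Agent.P251.I Vale.Agent.P251.Z Vale.Agent.P251.H Vale.Agent.P251.X

variable {T : Type u} [Category.{v} T] [Preadditive T] [HasZeroObject T]
    [HasShift T ℤ] [∀ n : ℤ, (shiftFunctor T n).Additive] [Pretriangulated T] [IsTriangulated T]
    [MonoidalCategory T] [SymmetricCategory T] [TensorTriangulated T] [MonoidalClosed T]
    [HasCoproducts.{0} T] [HasProducts.{0} T] [StableCat T] (D : MUData T)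

/-- The stage `n = k + 1`. -/
structure AD (p k : ℕ) where
  /-- the spectrum -/
  A : T
  [mon : MonObj A]
  /-- the structure map from the tensor power of `MU` -/
  io : Am D.R (k + 1) ⟶ A
  [hom : IsMonHom io]
  central : (β_ (Am D.R (k + 1)) A).hom ≫ A ◁ io ≫ μ[A] = io ▷ A ≫ μ[A]
  odd : Odd0 A
  surj : Function.Surjective fun z : Cob Laz k => HRing.map (E := stdEven T) io (D.ev k z)
  ker (z : Cob Laz k) : HRing.map (E := stdEven T) io (D.ev k z) = 0 ↔
    z ∈ (Laz.I p (k + 1)).map (MvPolynomial.C : Laz →+* Cob Laz k)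
  /-- the coaction -/
  co : A ⟶ A ⊗ Am D.R (k + 1)
  co_lin : io ▷ A ≫ μ[A] ≫ co = (inrM A (Am D.R (k + 1)) ⊗ₘ co) ≫ μ[A ⊗ Am D.R (k + 1)]
  co_counit : co ≫ A ◁ io ≫ μ[A] = 𝟙 A

attribute [instance] AD.mon AD.hom

end Vale.Agent.P241.EX
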