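import Vale.Agent.P241.EX.CDefs
import Vale.Agent.P251.S.GrB

/-!
# P241, block EX: averaging

`d : CData A R C Z S`, `M` a module over `A ⊗ R`.  For `f : C ⊗ X ⟶ M` the average
`d.avg l f : C ⊗ X ⟶ M` is linear in `C`, it is `f` if `f` is linear, and it has the value of `f`
at `c = 1`.  Consequences: `fac`, `ext_inj`, `exists_lin`.
-/

open CategoryTheory MonoidalCategory MonObj

set_option linter.unusedSectionVars false

universe v u

namespace Vale.Agent.P241.EX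

open Vale.Agent.P251.M Vale.Agent.P251.S Vale.Agent.P251.X

variable {T : Type u} [Category.{v} T] [Preadditive T] [MonoidalCategory T]
  [MonoidalPreadditive T] [SymmetricCategory T]

section mod

variable {A R M : T} [MonObj A] [MonObj R]

/-- the action of `R` -/
def rho (l : ModStr (A ⊗ R) M) : R ⊗ M ⟶ M := inrM A R ▷ M ≫ l.act

/-- the action of `A` -/
def lam (l : ModStr (A ⊗ R) M) : A ⊗ M ⟶ M := inlM A R ▷ M ≫ l.act

@[reassoc]
theorem unit_act {D M X : T} [MonObj D] (l : ModStr D M) (f : X ⟶ M) :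
    FM.unit D X ≫ D ◁ f ≫ l.act = f := by
  unfold FM.unit
  rw [Category.assoc, ← whisker_exchange_assoc, l.one_act]
  simp

theorem rho_mul (l : ModStr (A ⊗ R) M) :
    μ[R] ▷ M ≫ rho l = (α_ R R M).hom ≫ R ◁ rho l ≫ rho l :=
  (l.restr (inrM A R)).mul_act

theorem rho_one (l : ModStr (A ⊗ R) M) : η[R] ▷ M ≫ rho l = (λ_ M).hom :=
  (l.restr (inrM A R)).one_act

theorem lam_one (l : ModStr (A ⊗ R) M) : η[A] ▷ M ≫ lam l = (λ_ M).hom :=
  (l.restr (inlM A R)).one_act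

@[reassoc]
theorem unit_rho (l : ModStr (A ⊗ R) M) {X : T} (f : X ⟶ M) :
    FM.unit R X ≫ R ◁ f ≫ rho l = f := unit_act (l.restr (inrM A R)) f

@[reassoc]
theorem unit_lam (l : ModStr (A ⊗ R) M) {X : T} (f : X ⟶ M) :
    FM.unit A X ≫ A ◁ f ≫ lam l = f := unit_act (l.restr (inlM A R)) f

/-- `(a ⊗ r) m = a (r m)` -/
theorem act_eq (l : ModStr (A ⊗ R) M) :
    l.act = (α_ A R M).hom ≫ A ◁ rho l ≫ lam l := by
  have h : ((inlM A R ⊗ₘ inrM A R) ≫ μ[A ⊗ R]) ▷ M ≫ l.act = l.act := by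
    rw [inlM_inrM_mul, id_whiskerRight, Category.id_comp]
  rw [← h, comp_whiskerRight, Category.assoc, l.mul_act]
  unfold rho lam
  rw [tensorHom_def', comp_whiskerRight, Category.assoc, associator_naturality_left_assoc,
    associator_naturality_middle_assoc, MonoidalCategory.whiskerLeft_comp, Category.assoc]
  congr 2
  rw [← whisker_exchange_assoc]

end mod

namespace CData

variable {A R C Z S : T} [MonObj A] [MonObj R] (d : CData A R C Z S)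

section

variable {M X : T} (l : ModStr (A ⊗ R) M)

theorem lin_iff (f : C ⊗ X ⟶ M) :
    d.Lin l f ↔ d.act ▷ X ≫ f = (α_ R C X).hom ≫ R ◁ f ≫ rho l := Iff.rfl

theorem ext_eq (g : (Z ⊗ S) ⊗ X ⟶ M) :
    d.ext l g = d.δ ▷ X ≫ (α_ R (Z ⊗ S) X).hom ≫ R ◁ g ≫ rho l := rfl

/-- the average -/
def avg (f : C ⊗ X ⟶ M) : C ⊗ X ⟶ M :=
  d.t ▷ X ≫ (α_ (A ⊗ R) C X).hom ≫ (A ⊗ R) ◁ f ≫ l.act

theorem fact_whisker (D Y X : T) [MonObj D] :
    fact D Y ▷ X ≫ (α_ D Y X).hom =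
      (α_ D (D ⊗ Y) X).hom ≫ D ◁ (α_ D Y X).hom ≫ fact D (Y ⊗ X) := by
  unfold fact
  monoidal

theorem fact_act {D N Y : T} [MonObj D] (k : ModStr D N) (f : Y ⟶ N) :
    fact D Y ≫ D ◁ f ≫ k.act = D ◁ (D ◁ f ≫ k.act) ≫ k.act := by
  unfold fact
  rw [Category.assoc, ← whisker_exchange_assoc, k.mul_act, MonoidalCategory.whiskerLeft_comp,
    Category.assoc]
  monoidal

theorem avg_lin (f : C ⊗ X ⟶ M) : d.Lin l (d.avg l f) := by
  unfold Lin avg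
  rw [← comp_whiskerRight_assoc, d.t_lin, comp_whiskerRight_assoc, reassoc_of% fact_whisker,
    fact_act]
  have h1 : (inrM A R ⊗ₘ d.t) ▷ X ≫ (α_ (A ⊗ R) ((A ⊗ R) ⊗ C) X).hom =
      (α_ R C X).hom ≫ (inrM A R ⊗ₘ (d.t ▷ X)) := by
    rw [← tensorHom_id, ← tensorHom_id, associator_naturality]
  rw [reassoc_of% h1, tensorHom_def']
  simp only [MonoidalCategory.whiskerLeft_comp, Category.assoc]
  rw [← whisker_exchange_assoc, ← whisker_exchange_assoc, ← whisker_exchange_assoc]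

theorem avg_of_lin (f : C ⊗ X ⟶ M) (hf : d.Lin l f) : d.avg l f = f := by
  rw [lin_iff] at hf
  unfold avg
  rw [act_eq, associator_naturality_right_assoc, ← MonoidalCategory.whiskerLeft_comp_assoc]
  have h1 : R ◁ f ≫ rho l = (α_ R C X).inv ≫ d.act ▷ X ≫ f := by
    rw [hf, Iso.inv_hom_id_assoc]
  rw [h1]
  have h2 : (α_ (A ⊗ R) C X).hom ≫ (α_ A R (C ⊗ X)).hom ≫
      A ◁ ((α_ R C X).inv ≫ d.act ▷ X ≫ f) =
      ((α_ A R C).hom ≫ A ◁ d.act) ▷ X ≫ (α_ A C X).hom ≫ A ◁ f := by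
    monoidal
  rw [reassoc_of% h2, ← comp_whiskerRight_assoc, d.t_act]
  have h3 : FM.unit A C ▷ X ≫ (α_ A C X).hom = FM.unit A (C ⊗ X) := by
    unfold FM.unit
    monoidal
  rw [reassoc_of% h3, unit_lam]

/-- the value at `1` -/
theorem one_t : (η[R] ≫ d.q) ≫ d.t = (η[R] ≫ d.q) ≫ FM.unit (A ⊗ R) C := by
  rw [Category.assoc, Category.assoc, FM.unit_naturality, d.q_t]
  have h2 : η[R] ≫ FM.unit (A ⊗ R) R = η[(A ⊗ R) ⊗ R] := IsMonHom.one_hom (inrM (A ⊗ R) R)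
  have h3 : η[R] ≫ inrM A R ≫ inlM (A ⊗ R) R = η[(A ⊗ R) ⊗ R] :=
    IsMonHom.one_hom (inrM A R ≫ inlM (A ⊗ R) R)
  rw [reassoc_of% h2, reassoc_of% h3]

@[reassoc]
theorem one_avg (f : C ⊗ X ⟶ M) :
    (η[R] ≫ d.q) ▷ X ≫ d.avg l f = (η[R] ≫ d.q) ▷ X ≫ f := by
  unfold avg
  rw [← comp_whiskerRight_assoc, one_t, comp_whiskerRight_assoc]
  have h3 : FM.unit (A ⊗ R) C ▷ X ≫ (α_ (A ⊗ R) C X).hom = FM.unit (A ⊗ R) (C ⊗ X) := by
    unfold FM.unit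
    monoidal
  rw [reassoc_of% h3, unit_act]

theorem q_lin_eq : d.q = (ρ_ R).inv ≫ R ◁ (η[R] ≫ d.q) ≫ d.act := by
  have h : μ[R] ≫ d.q = R ◁ d.q ≫ d.act := d.q_act.symm
  rw [MonoidalCategory.whiskerLeft_comp, Category.assoc, ← h, MonObj.mul_one_assoc,
    Iso.inv_hom_id_assoc]

theorem q_of_lin (f : C ⊗ X ⟶ M) (hf : d.Lin l f) :
    d.q ▷ X ≫ f = R ◁ ((λ_ X).inv ≫ (η[R] ≫ d.q) ▷ X ≫ f) ≫ rho l := by
  rw [lin_iff] at hf
  rw [d.q_lin_eq, comp_whiskerRight, comp_whiskerRight, Category.assoc, Category.assoc, hf,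
    ← d.q_lin_eq]
  monoidal

/-- **(F)** a linear map which vanishes at `1` factors through `δ` -/
theorem fac (f : C ⊗ X ⟶ M) (hf : d.Lin l f) (h1 : (η[R] ≫ d.q) ▷ X ≫ f = 0) :
    ∃ g, f = d.ext l g := by
  have h2 : d.q ▷ X ≫ f = 0 := by
    rw [d.q_of_lin l f hf, h1, Limits.comp_zero, MonoidalPreadditive.whiskerLeft_zero,
      Limits.zero_comp]
  obtain ⟨b, hb⟩ := d.exact.fac X M f h2
  refine ⟨FM.unit R (Z ⊗ S) ▷ X ≫ b, ?_⟩
  have h3 := d.avg_of_lin l f hf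
  rw [← h3]
  unfold avg
  rw [hb, MonoidalCategory.whiskerLeft_comp, Category.assoc, ← associator_naturality_middle_assoc,
    ← comp_whiskerRight_assoc, d.t_δ, comp_whiskerRight_assoc, comp_whiskerRight_assoc,
    associator_naturality_middle_assoc, associator_naturality_left_assoc,
    ← MonoidalCategory.whiskerLeft_comp_assoc, ← whisker_exchange_assoc]
  rfl

theorem v_comp (hv : d.v ▷ M ≫ rho l = 0) {Y : T} (h : R ⊗ Y ⟶ M) : d.v ▷ Y ≫ h = 0 := by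
  have h1 : inrM (A ⊗ R) R ▷ Y ≫ (α_ (A ⊗ R) R Y).hom ≫ (A ⊗ R) ◁ h ≫ l.act = h := by
    have h3 : inrM (A ⊗ R) R ▷ Y ≫ (α_ (A ⊗ R) R Y).hom = FM.unit (A ⊗ R) (R ⊗ Y) := by
      unfold FM.unit inrM
      monoidal
    rw [reassoc_of% h3, unit_act]
  have h2 : inlM (A ⊗ R) R ▷ Y ≫ (α_ (A ⊗ R) R Y).hom =
      (A ⊗ R) ◁ FM.unit R Y := by
    unfold FM.unit inlM
    monoidal
  rw [← h1, ← comp_whiskerRight_assoc, ← d.inv, comp_whiskerRight_assoc, comp_whiskerRight_assoc,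
    reassoc_of% h2, ← MonoidalCategory.whiskerLeft_comp_assoc, ← whisker_exchange_assoc,
    ← whisker_exchange_assoc]
  change Z ◁ _ ≫ d.v ▷ M ≫ rho l = 0
  rw [hv, Limits.comp_zero]

/-- **(U)** -/
theorem ext_inj (hv : d.v ▷ M ≫ rho l = 0) (g : (Z ⊗ S) ⊗ X ⟶ M) (hg : d.ext l g = 0) :
    g = 0 := by
  obtain ⟨h, hh⟩ := d.exact.inj X M ((α_ R (Z ⊗ S) X).hom ≫ R ◁ g ≫ rho l) hg
  have h1 : FM.unit R (Z ⊗ S) ▷ X ≫ (α_ R (Z ⊗ S) X).hom ≫ R ◁ g ≫ rho l = g := by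
    have h3 : FM.unit R (Z ⊗ S) ▷ X ≫ (α_ R (Z ⊗ S) X).hom = FM.unit R ((Z ⊗ S) ⊗ X) := by
      unfold FM.unit
      monoidal
    rw [reassoc_of% h3, unit_rho]
  have h2 : FM.unit R (Z ⊗ S) ≫ R ◁ (d.v ▷ S) ≫ (α_ R R S).inv ≫ μ[R] ▷ S = d.v ▷ S := by
    rw [← FM.unit_naturality_assoc]
    have h4 : FM.unit R (R ⊗ S) ≫ (α_ R R S).inv ≫ μ[R] ▷ S =
        ((λ_ R).inv ≫ η[R] ▷ R ≫ μ[R]) ▷ S := by
      unfold FM.unit
      monoidal
    rw [h4, MonObj.one_mul, Iso.inv_hom_id, id_whiskerRight, Category.comp_id]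
  rw [← h1, hh, ← comp_whiskerRight_assoc, h2]
  have h5 := d.v_comp l hv ((α_ R S X).inv ≫ h)
  have h6 : (d.v ▷ S) ▷ X ≫ h = (α_ Z S X).hom ≫ d.v ▷ (S ⊗ X) ≫ (α_ R S X).inv ≫ h := by
    monoidal
  rw [h6, h5, Limits.comp_zero]

theorem ext_sub (g g' : (Z ⊗ S) ⊗ X ⟶ M) : d.ext l (g - g') = d.ext l g - d.ext l g' := by
  have h : R ◁ (g - g') = R ◁ g - R ◁ g' := (tensorLeft R).map_sub
  unfold ext
  rw [h]
  simp only [Preadditive.sub_comp, Preadditive.comp_sub]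

theorem ext_injective (hv : d.v ▷ M ≫ rho l = 0) {g g' : (Z ⊗ S) ⊗ X ⟶ M}
    (hg : d.ext l g = d.ext l g') : g = g' := by
  have h := d.ext_inj l hv (g - g') (by rw [ext_sub, hg, sub_self])
  exact sub_eq_zero.1 h

/-- **(L)** -/
theorem exists_lin (hv : d.v ▷ M ≫ rho l = 0) (f : X ⟶ M) :
    ∃ g : C ⊗ X ⟶ M, d.Lin l g ∧ (η[R] ≫ d.q) ▷ X ≫ g = (λ_ X).hom ≫ f := by
  have h1 : (R ◁ d.v ≫ μ[R]) ▷ X ≫ R ◁ f ≫ rho l = 0 := by
    rw [comp_whiskerRight, Category.assoc, ← whisker_exchange_assoc, rho_mul]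
    have h2 : (R ◁ d.v) ▷ X ≫ (R ⊗ R) ◁ f ≫ (α_ R R M).hom =
        (α_ R Z X).hom ≫ R ◁ (Z ◁ f) ≫ R ◁ (d.v ▷ M) := by
      rw [← whisker_exchange_assoc]
      monoidal
    rw [reassoc_of% h2, ← MonoidalCategory.whiskerLeft_comp_assoc R (d.v ▷ M), hv,
      MonoidalPreadditive.whiskerLeft_zero, Limits.zero_comp, Limits.comp_zero, Limits.comp_zero]
  obtain ⟨b, hb⟩ := d.exact.ext X M _ h1
  refine ⟨d.avg l b, d.avg_lin l b, ?_⟩
  rw [one_avg, comp_whiskerRight, Category.assoc, ← hb, ← whisker_exchange_assoc, rho_one]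
  simp

end

end CData

end Vale.Agent.P241.EX
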