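import Vale.Agent.P251.X.Step

/-!
# P241, block EX: interface of the core

`A` an associative monoid, `R` a commutative monoid, `C = R / v` with an action of `R` (which is
a module structure after `A ⊗ _`) and a coaction `t : C ⟶ (A ⊗ R) ⊗ C`.

* `CData A R C Z S` : the data of `C`; `CData.Van` : the vanishing hypotheses.
* `CData.Lin`, `CData.ext` : linear maps `C ⊗ X ⟶ M`, the maps `c ⊗ x ↦ (δ c) g (x)`.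
* `IsDer`, `NoDer` : maps `A ⊗ X ⟶ M` which are linear over their kernel; absence of such maps.
* `actR`, `actr`, `oneE`, `mulE` : the operations of `A ⊗ C`.
* `TwProd A act q` : a twisted product `C ⊗ C ⟶ A ⊗ C`.
-/

open CategoryTheory MonoidalCategory MonObj

set_option linter.unusedSectionVars false

universe v u

namespace Vale.Agent.P241.EX

open Vale.Agent.P251.M Vale.Agent.P251.S Vale.Agent.P251.X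

variable {T : Type u} [Category.{v} T] [Preadditive T] [MonoidalCategory T]
  [MonoidalPreadditive T] [SymmetricCategory T]

/-- `C = R / v` with a coaction `t : C ⟶ (A ⊗ R) ⊗ C`. -/
structure CData (A R C Z S : T) [MonObj A] [MonObj R] where
  /-- the element -/
  v : Z ⟶ R
  /-- the projection -/
  q : R ⟶ C
  /-- the action of `R` -/
  act : R ⊗ C ⟶ C
  q_act : R ◁ q ≫ act = μ[R] ≫ q
  one' : ((λ_ C).inv ≫ η[R] ▷ C ≫ act) ≫ FM.unit A C = FM.unit A C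
  mul' : (μ[R] ▷ C ≫ act) ≫ FM.unit A C = ((α_ R R C).hom ≫ R ◁ act ≫ act) ≫ FM.unit A C
  /-- the boundary -/
  δ : C ⟶ R ⊗ (Z ⊗ S)
  δ_act : act ≫ δ = R ◁ δ ≫ fact R (Z ⊗ S)
  exact : HomExact (R ◁ v ≫ μ[R]) q δ (R ◁ (v ▷ S) ≫ (α_ R R S).inv ≫ μ[R] ▷ S)
  /-- the coaction -/
  t : C ⟶ (A ⊗ R) ⊗ C
  t_lin : act ≫ t = (inrM A R ⊗ₘ t) ≫ fact (A ⊗ R) C
  t_act : t ≫ (α_ A R C).hom ≫ A ◁ act = FM.unit A C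
  q_t : q ≫ t = inrM A R ≫ inlM (A ⊗ R) R ≫ (A ⊗ R) ◁ q
  t_δ : t ≫ (A ⊗ R) ◁ δ = δ ≫ inrM A R ▷ (Z ⊗ S) ≫ (A ⊗ R) ◁ FM.unit R (Z ⊗ S)
  inv : v ≫ inrM A R ≫ inlM (A ⊗ R) R = v ≫ inrM (A ⊗ R) R

namespace CData

variable {A R C Z S : T} [MonObj A] [MonObj R] (d : CData A R C Z S)

/-- `f (r c, x) = r f (c, x)` -/
def Lin {M X : T} (l : ModStr (A ⊗ R) M) (f : C ⊗ X ⟶ M) : Prop :=
  d.act ▷ X ≫ f = (α_ R C X).hom ≫ R ◁ f ≫ inrM A R ▷ M ≫ l.act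

/-- the map `c ⊗ x ↦ g (δ c, x)`, extended linearly -/
def ext {M X : T} (l : ModStr (A ⊗ R) M) (g : (Z ⊗ S) ⊗ X ⟶ M) : C ⊗ X ⟶ M :=
  d.δ ▷ X ≫ (α_ R (Z ⊗ S) X).hom ≫ R ◁ g ≫ inrM A R ▷ M ≫ l.act

/-- the vanishing hypotheses; `𝒲` a class of objects which contains `Z ⊗ S` -/
structure Van (𝒲 : T → Prop) : Prop where
  vC' : (d.v ▷ C ≫ d.act) ≫ FM.unit A C = 0
  hW : 𝒲 (Z ⊗ S)
  h1 : ∀ f : Z ⊗ S ⟶ A ⊗ C, f = 0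
  h3 : ∀ W, 𝒲 W → ∀ f : W ⊗ ((Z ⊗ S) ⊗ (Z ⊗ S)) ⟶ A ⊗ C, f = 0

end CData

/-- `d (f b, x) = f d (b, x)` if `d (f, x) = 0`; this is true for derivations. -/
def IsDer {A M X : T} [MonObj A] (l : ModStr A M) (d : A ⊗ X ⟶ M) : Prop :=
  ∀ (V : T) (f : V ⟶ A), f ▷ X ≫ d = 0 →
    (f ▷ A ≫ μ[A]) ▷ X ≫ d = (α_ V A X).hom ≫ V ◁ d ≫ f ▷ M ≫ l.act

/-- `A` has no derivations over `ι : Q ⟶ A` with values in modules without maps from `W ⊗ X`,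
`W` in the class `𝒲`. -/
def NoDer (𝒲 : T → Prop) {A Q : T} [MonObj A] (ι : Q ⟶ A) : Prop :=
  ∀ (M X : T) (l : ModStr A M), (∀ W, 𝒲 W → ∀ f : W ⊗ X ⟶ M, f = 0) →
    ∀ d : A ⊗ X ⟶ M, IsDer l d → ι ▷ X ≫ d = 0 → d = 0

section ops

variable (A : T) [MonObj A] {R C : T} [MonObj R]

/-- the action of `R` on `A ⊗ C`, `r (a ⊗ c) = a ⊗ r c` -/
def actR (act : R ⊗ C ⟶ C) : R ⊗ (A ⊗ C) ⟶ A ⊗ C :=
  (α_ R A C).inv ≫ (β_ R A).hom ▷ C ≫ (α_ A R C).hom ≫ A ◁ act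

/-- the right action of `A` on `A ⊗ C`, `(a ⊗ c) b = a b ⊗ c` -/
def actr (C : T) : (A ⊗ C) ⊗ A ⟶ A ⊗ C :=
  (α_ A C A).hom ≫ A ◁ (β_ C A).hom ≫ (α_ A A C).inv ≫ μ[A] ▷ C

/-- the unit of `A ⊗ C` -/
def oneE (q : R ⟶ C) : 𝟙_ T ⟶ A ⊗ C := (λ_ (𝟙_ T)).inv ≫ (η[A] ⊗ₘ (η[R] ≫ q))

/-- the product of `A ⊗ C`, `(a ⊗ c) (a' ⊗ c') = a a' m (c, c')` -/
def mulE (m : C ⊗ C ⟶ A ⊗ C) : (A ⊗ C) ⊗ (A ⊗ C) ⟶ A ⊗ C :=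
  tensorμ A C A C ≫ (μ[A] ⊗ₘ m) ≫ fact A C

end ops

/-- A twisted product on `C`, with values in `A ⊗ C`. -/
structure TwProd (A : T) [MonObj A] {R C : T} [MonObj R] (act : R ⊗ C ⟶ C) (q : R ⟶ C) where
  /-- the product -/
  m : C ⊗ C ⟶ A ⊗ C
  /-- `m (r c, c') = r m (c, c')` -/
  lin : act ▷ C ≫ m = (α_ R C C).hom ≫ R ◁ m ≫ actR A act
  /-- `m (c, r c') = r m (c, c')` -/
  lin' : C ◁ act ≫ m =
    (α_ C R C).inv ≫ (β_ C R).hom ▷ C ≫ (α_ R C C).hom ≫ R ◁ m ≫ actR A act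
  /-- `m (1, c) = 1 ⊗ c` -/
  one_mul : (η[R] ≫ q) ▷ C ≫ m = (λ_ C).hom ≫ FM.unit A C
  /-- `m (c, 1) = 1 ⊗ c` -/
  mul_one : C ◁ (η[R] ≫ q) ≫ m = (ρ_ C).hom ≫ FM.unit A C
  /-- `b m (c, c') = m (c, c') b` -/
  cen : A ◁ m ≫ fact A C = (β_ A (C ⊗ C)).hom ≫ m ▷ A ≫ actr A C
  /-- `m (m (c, c'), c'') = m (c, m (c', c''))` -/
  assoc : m ▷ C ≫ (α_ A C C).hom ≫ A ◁ m ≫ fact A C =
    (α_ C C C).hom ≫ C ◁ m ≫ (α_ C A C).inv ≫ (β_ C A).hom ▷ C ≫ (α_ A C C).hom ≫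
      A ◁ m ≫ fact A C

end Vale.Agent.P241.EX
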