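import Vale.Agent.P241.EX.Par
import Vale.Agent.P241.EX.CDefs

/-!
# P241, block EX: the input of the core

`StepD P R Z C` and the vanishing hypotheses give `CData P R C Z S¹` and its `Van`.
-/

open CategoryTheory MonoidalCategory Limits Pretriangulated MonObj

set_option linter.unusedSectionVars false

universe v u

namespace Vale.Agent.P241.EX

open Vale.Agent.P251.T Vale.Agent.P251.M Vale.Agent.P251.M.EvenSpheres Vale.Agent.P251.S
  Vale.Agent.P251.F Vale.Agent.P251.I Vale.Agent.P251.X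

section gen

variable {T : Type u} [Category.{v} T] [Preadditive T] [HasZeroObject T] [HasShift T ℤ]
  [∀ n : ℤ, (shiftFunctor T n).Additive] [Pretriangulated T]
  [MonoidalCategory T] [SymmetricCategory T] [TensorTriangulated T]
  {P R Z C : T} [MonObj P] [MonObj R] (d : StepD P R Z C)

theorem stepD_exact : HomExact (R ◁ d.v ≫ μ[R]) d.q (bdry d.δ)
    (R ◁ (d.v ▷ (𝟙_ T)⟦(1 : ℤ)⟧) ≫ (α_ R R ((𝟙_ T)⟦(1 : ℤ)⟧)).inv ≫
      μ[R] ▷ (𝟙_ T)⟦(1 : ℤ)⟧) := by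
  refine homExact_of_dist d.dist (Iso.refl _)
    ((α_ R Z ((𝟙_ T)⟦(1 : ℤ)⟧)).symm ≪≫ TensorTriangulated.e (R ⊗ Z))
    (TensorTriangulated.e R) (Category.id_comp _) ?_ ?_
  · change (d.δ ≫ (TensorTriangulated.e (R ⊗ Z)).inv ≫ (α_ R Z ((𝟙_ T)⟦(1 : ℤ)⟧)).hom) ≫
      (α_ R Z ((𝟙_ T)⟦(1 : ℤ)⟧)).inv ≫ (TensorTriangulated.e (R ⊗ Z)).hom = _
    simp
  · change ((α_ R Z ((𝟙_ T)⟦(1 : ℤ)⟧)).inv ≫ (TensorTriangulated.e (R ⊗ Z)).hom) ≫ _ = _
    rw [Category.assoc, ← TensorTriangulated.e_naturality]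
    simp

variable [IsCommMonObj R]

/-- The input of the core. -/
noncomputable def cdata (V3 : ∀ f : ((R ⊗ R) ⊗ (R ⊗ Z))⟦(1 : ℤ)⟧ ⟶ P ⊗ C, f = 0) :
    CData P R C Z ((𝟙_ T)⟦(1 : ℤ)⟧) where
  v := d.v
  q := d.q
  act := d.a
  q_act := d.q_a
  one' := one_a d
  mul' := mul_a d V3
  δ := bdry d.δ
  δ_act := d.a_bdry
  exact := stepD_exact d
  t := d.t
  t_lin := d.a_t
  t_act := d.t_r
  q_t := d.q_t
  t_δ := d.t_bdry
  inv := d.inv

end gen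

variable {T : Type u} [Category.{v} T] [Preadditive T] [HasZeroObject T]
    [HasShift T ℤ] [∀ n : ℤ, (shiftFunctor T n).Additive] [Pretriangulated T] [IsTriangulated T]
    [MonoidalCategory T] [SymmetricCategory T] [TensorTriangulated T] [MonoidalClosed T]
    [HasCoproducts.{0} T] [HasProducts.{0} T] [StableCat T]

/-- The vanishing hypotheses. -/
theorem cdata_van {P R C : T} [MonObj P] [MonObj R] [IsCommMonObj R] {m : ℤ}
    (d : StepD P R ((stdEven T).S m) C)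
    (V3 : ∀ f : ((R ⊗ R) ⊗ (R ⊗ (stdEven T).S m))⟦(1 : ℤ)⟧ ⟶ P ⊗ C, f = 0)
    (VZ : ∀ f : ((stdEven T).S m ⊗ (R ⊗ (stdEven T).S m))⟦(1 : ℤ)⟧ ⟶ P ⊗ C, f = 0)
    (h : Odd0 (P ⊗ C)) : (cdata d V3).Van OddS where
  vC' := v_a d VZ
  hW := oddS_self m
  h1 := h.h1 m
  h3 _ hW := hW.h3 h m

end Vale.Agent.P241.EX
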