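import Vale.Agent.P241.EX.CofA
import Vale.Agent.P241.EX.StageA
import Vale.Agent.P093.N0.MU

/-!
# P241, block EX: the base case, `A = 𝟙`, `C = MU ⊗ S/p`
-/

open CategoryTheory MonoidalCategory Limits Pretriangulated MonObj

set_option linter.unusedSectionVars false

universe v u

namespace Vale.Agent.P241.EX

open Vale.Agent.P251.T Vale.Agent.P251.M Vale.Agent.P251.M.EvenSpheres Vale.Agent.P251.S
  Vale.Agent.P251.F Vale.Agent.P251.I Vale.Agent.P251.Z Vale.Agent.P251.H Vale.Agent.P251.X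
  Vale.Agent.P093.N0

variable {T : Type u} [Category.{v} T] [Preadditive T] [HasZeroObject T]
    [HasShift T ℤ] [∀ n : ℤ, (shiftFunctor T n).Additive] [Pretriangulated T] [IsTriangulated T]
    [MonoidalCategory T] [SymmetricCategory T] [TensorTriangulated T] [MonoidalClosed T]
    [HasCoproducts.{0} T] [HasProducts.{0} T] [StableCat T] (D : MUData T)

/-- transport of a module structure -/
def modOfIso {R N N' : T} [MonObj R] (M : ModStr R N) (i : N ≅ N') : ModStr R N' where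
  act := R ◁ i.inv ≫ M.act ≫ i.hom
  one_act := by
    rw [← whisker_exchange_assoc, reassoc_of% M.one_act, leftUnitor_naturality_assoc, i.inv_hom_id,
      Category.comp_id]
  mul_act := by
    rw [← whisker_exchange_assoc, reassoc_of% M.mul_act]
    simp only [MonoidalCategory.whiskerLeft_comp, Category.assoc]
    rw [associator_naturality_right_assoc, ← MonoidalCategory.whiskerLeft_comp_assoc R i.hom,
      i.hom_inv_id, MonoidalCategory.whiskerLeft_id, Category.id_comp]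

theorem pz (p : ℕ) : (p ^ 0 : ℤ) - 1 = 0 := by simp

/-- `S^0 ≅ 𝟙` -/
noncomputable def e0 (T : Type u) [Category.{v} T] [Preadditive T] [HasZeroObject T]
    [HasShift T ℤ] [∀ n : ℤ, (shiftFunctor T n).Additive] [Pretriangulated T] [IsTriangulated T]
    [MonoidalCategory T] [SymmetricCategory T] [TensorTriangulated T] [MonoidalClosed T]
    [HasCoproducts.{0} T] [HasProducts.{0} T] [StableCat T] (p : ℕ) :
    (stdEven T).S ((p ^ 0 : ℤ) - 1) ≅ 𝟙_ T :=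
  (stdEven T).castIso _ _ (pz p) ≪≫ (stdEven T).zero.symm

theorem vel_zero_eq (p : ℕ) : D.vel p 0 = (e0 T p).hom ≫ ((p : ℤ) • η[D.R]) := by
  have h1 : HRing.of (stdEven T) D.R _ (D.vel p 0) =
      HRing.of (stdEven T) D.R _ ((e0 T p).hom ≫ ((p : ℤ) • η[D.R])) := by
    rw [← D.vel_spec, vv_zero, e0, Iso.trans_hom, Category.assoc, of_cast (pz p),
      Preadditive.comp_zsmul]
    refine Eq.trans ?_ (map_zsmul (DirectSum.of ((stdEven T).Gr D.R) 0) (p : ℤ) _).symm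
    have h2 : DirectSum.of ((stdEven T).Gr D.R) 0 ((stdEven T).zero.symm.hom ≫ η[D.R]) =
      (1 : HRing (stdEven T) D.R) := of_one
    rw [h2, zsmul_eq_mul, _root_.mul_one, Int.cast_natCast]
  exact DirectSum.of_injective (β := (stdEven T).Gr D.R) _ h1

/-- the unit of `MU ⊗ M` over `MU` -/
noncomputable def q0 {M : T} (iM : 𝟙_ T ⟶ M) : D.R ⟶ D.R ⊗ M := (ρ_ D.R).inv ≫ D.R ◁ iM

/-- the boundary -/
noncomputable def δ0 (p : ℕ) {M : T} (δM : M ⟶ (𝟙_ T)⟦(1 : ℤ)⟧) :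
    D.R ⊗ M ⟶ (D.R ⊗ (stdEven T).S ((p ^ 0 : ℤ) - 1))⟦(1 : ℤ)⟧ :=
  tensδ D.R δM ≫ (D.R ◁ (e0 T p).inv)⟦(1 : ℤ)⟧'

theorem dist0 (p : ℕ) {M : T} {iM : 𝟙_ T ⟶ M} {δM : M ⟶ (𝟙_ T)⟦(1 : ℤ)⟧}
    (hM : Triangle.mk ((p : ℤ) • 𝟙 (𝟙_ T)) iM δM ∈ distTriang T) :
    Triangle.mk (D.R ◁ D.vel p 0 ≫ μ[D.R]) (q0 D iM) (δ0 D p δM) ∈ distTriang T := by
  refine isomorphic_distinguished _ (base_dist D.R hM) _ ?_
  refine Triangle.isoMk _ _ (whiskerLeftIso D.R (e0 T p)) (Iso.refl _) (Iso.refl _) ?_ ?_ ?_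
  · change (D.R ◁ D.vel p 0 ≫ μ[D.R]) ≫ 𝟙 _ =
      D.R ◁ (e0 T p).hom ≫ D.R ◁ ((p : ℤ) • η[D.R]) ≫ μ[D.R]
    rw [Category.comp_id, vel_zero_eq, MonoidalCategory.whiskerLeft_comp, Category.assoc]
  · change q0 D iM ≫ 𝟙 _ = 𝟙 _ ≫ ((ρ_ D.R).inv ≫ D.R ◁ iM)
    rw [Category.comp_id, Category.id_comp]
    rfl
  · change (tensδ D.R δM ≫ (D.R ◁ (e0 T p).inv)⟦(1 : ℤ)⟧') ≫ (D.R ◁ (e0 T p).hom)⟦(1 : ℤ)⟧' =
      𝟙 _ ≫ tensδ D.R δM
    rw [Category.assoc, ← Functor.map_comp, ← MonoidalCategory.whiskerLeft_comp,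
      Iso.inv_hom_id, MonoidalCategory.whiskerLeft_id, CategoryTheory.Functor.map_id,
      Category.comp_id, Category.id_comp]

theorem inv0 (p : ℕ) : D.vel p 0 ≫ inrM (𝟙_ T) D.R ≫ inlM (𝟙_ T ⊗ D.R) D.R =
    D.vel p 0 ≫ inrM (𝟙_ T ⊗ D.R) D.R := by
  rw [vel_zero_eq, Category.assoc, Category.assoc, Preadditive.zsmul_comp, Preadditive.zsmul_comp,
    IsMonHom.one_hom (inrM (𝟙_ T ⊗ D.R) D.R),
    IsMonHom.one_hom (inrM (𝟙_ T) D.R ≫ inlM (𝟙_ T ⊗ D.R) D.R)]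

section odd

variable {D} (HA : MUAll D) {p : ℕ} [Fact p.Prime] {M : T} {iM : 𝟙_ T ⟶ M}
  {δM : M ⟶ (𝟙_ T)⟦(1 : ℤ)⟧} (hM : Triangle.mk ((p : ℤ) • 𝟙 (𝟙_ T)) iM δM ∈ distTriang T)

include HA hM

theorem odd0_unit : Odd0 (𝟙_ T ⊗ (D.R ⊗ M)) := by
  intro l f
  have h1 := HA.odd p 0 M iM δM hM l (f ≫ (α_ (𝟙_ T) D.R M).inv)
  rw [← cancel_mono (α_ (𝟙_ T) D.R M).inv, zero_comp]
  exact h1

theorem odd0_RM : Odd0 (D.R ⊗ M) := by
  intro l f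
  have h1 := odd0_unit HA hM l (f ≫ (λ_ (D.R ⊗ M)).inv)
  rw [← cancel_mono (λ_ (D.R ⊗ M)).inv, zero_comp]
  exact h1

theorem odd0_two : Odd0 ((𝟙_ T ⊗ D.R) ⊗ (D.R ⊗ M)) := by
  intro l f
  have h1 := HA.odd p 1 M iM δM hM l (f ≫ (α_ (𝟙_ T ⊗ D.R) D.R M).inv)
  rw [← cancel_mono (α_ (𝟙_ T ⊗ D.R) D.R M).inv, zero_comp]
  exact h1

variable {F : SpaceFunctor T} {e : F.S.obj CCF ≅ (stdEven T).L} (H : MUUniv e D)

/-- The input of the first step. -/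
noncomputable def step0 : StepD (𝟙_ T) D.R ((stdEven T).S ((p ^ 0 : ℤ) - 1)) (D.R ⊗ M) where
  v := D.vel p 0
  q := q0 D iM
  δ := δ0 D p δM
  dist := dist0 D p hM
  inv := inv0 D p
  V1 := V1_of_odd H (modOfIso (ModStr.free D.R M) (λ_ (D.R ⊗ M)).symm) (odd0_unit HA hM) _
  V2 := V2_of_odd H ((ModStr.free (𝟙_ T ⊗ D.R) (D.R ⊗ M)).restr (inrM (𝟙_ T) D.R))
    (odd0_two HA hM) _

end odd

/-! ### the homotopy -/

theorem ioC0_eq {M : T} (iM : 𝟙_ T ⟶ M) : ((𝟙 (𝟙_ T)) ⊗ₘ q0 D iM : 𝟙_ T ⊗ D.R ⟶ _) =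
    (ρ_ (𝟙_ T ⊗ D.R)).inv ≫ (𝟙_ T ⊗ D.R) ◁ iM ≫ (α_ (𝟙_ T) D.R M).hom := by
  unfold q0
  rw [id_tensorHom, MonoidalCategory.whiskerLeft_comp]
  monoidal

end Vale.Agent.P241.EX
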