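import Vale.Agent.P241.EX.BaseA

/-!
# P241, block EX: the homotopy of `MU ⊗ S/p`, at every prime
-/

open CategoryTheory MonoidalCategory Limits Pretriangulated MonObj

set_option linter.unusedSectionVars false

universe v u

namespace Vale.Agent.P241.EX

open Vale.Agent.P251.T Vale.Agent.P251.M Vale.Agent.P251.M.EvenSpheres Vale.Agent.P251.S
  Vale.Agent.P251.F Vale.Agent.P251.I Vale.Agent.P251.Z Vale.Agent.P251.H Vale.Agent.P251.X
  Vale.Agent.P093.N0

variable {T : Type u} [Category.{v} T] [Preadditive T] [HasZeroObject T]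
    [HasShift T ℤ] [∀ n : ℤ, (shiftFunctor T n).Additive] [Pretriangulated T] [IsTriangulated T]
    [MonoidalCategory T] [SymmetricCategory T] [TensorTriangulated T] [MonoidalClosed T]
    [HasCoproducts.{0} T] [HasProducts.{0} T] [StableCat T] {D : MUData T}

/-- from homogeneous elements to all elements -/
theorem exists_smul_of_hom {k : ℕ} {B : T} [MonObj B] (io : Am D.R (k + 1) ⟶ B) [IsMonHom io]
    {m : ℤ} (h : ∀ (w : ℤ) (z : Cob Laz k), Cob.IsWt w z → ∀ a : (stdEven T).S w ⟶ Am D.R (k + 1),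
      D.ev k z = HRing.of (stdEven T) (Am D.R (k + 1)) w a → a ≫ io = 0 → ∃ y, z = m • y)
    (x : Cob Laz k) (hx : HRing.map (E := stdEven T) io (D.ev k x) = 0) : ∃ y, x = m • y := by
  classical
  set Λ : Cob Laz k →+* HRing (stdEven T) B :=
    (HRing.map (E := stdEven T) io).comp (D.ev k) with hΛ
  have h1 : Λ x = 0 := hx
  have h2 : ∀ w : ℤ, ∃ a : (stdEven T).S w ⟶ Am D.R (k + 1),
      D.ev k (Cob.pr Laz k w x) = HRing.of (stdEven T) (Am D.R (k + 1)) w a := fun w =>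
    D.ev_wt k w _ (Cob.isWt_pr w x)
  choose a ha using h2
  have h3 : ∀ w, Λ (Cob.pr Laz k w x) = HRing.of (stdEven T) B w (a w ≫ io) := fun w => by
    rw [hΛ, RingHom.comp_apply, ha, HRing.map_of]
  set s := (Cob.chi (Cob.univ Laz k) x).coeff.support with hs
  have h4 : ∑ w ∈ s, Cob.pr Laz k w x = x := Cob.sum_pr x
  have h5 : ∀ w ∈ s, a w ≫ io = 0 := by
    intro w hw
    have h6 : (∑ v ∈ s, HRing.of (stdEven T) B v (a v ≫ io)) = 0 := by
      rw [← Finset.sum_congr rfl fun v _ => h3 v, ← map_sum, h4, h1]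
    have h7 := congrArg (fun y : HRing (stdEven T) B => y w) h6
    simp only [DirectSum.zero_apply] at h7
    rw [DFinsupp.finsetSum_apply, Finset.sum_eq_single w] at h7
    · rwa [DirectSum.of_eq_same] at h7
    · intro v _ hv
      exact DirectSum.of_eq_of_ne _ _ _ hv.symm
    · intro h8
      exact absurd hw h8
  have h6 : ∀ w, ∃ y : Cob Laz k, w ∈ s → Cob.pr Laz k w x = m • y := by
    intro w
    by_cases hw : w ∈ s
    · obtain ⟨y, hy⟩ := h w _ (Cob.isWt_pr w x) (a w) (ha w) (h5 w hw)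
      exact ⟨y, fun _ => hy⟩
    · exact ⟨0, fun h => absurd h hw⟩
  choose y hy using h6
  refine ⟨∑ w ∈ s, y w, ?_⟩
  rw [Finset.smul_sum, ← Finset.sum_congr rfl fun w hw => hy w hw, h4]

section base

variable (HA : MUAll D) {p : ℕ} [Fact p.Prime] {M : T} {iM : 𝟙_ T ⟶ M}
  {δM : M ⟶ (𝟙_ T)⟦(1 : ℤ)⟧} (hM : Triangle.mk ((p : ℤ) • 𝟙 (𝟙_ T)) iM δM ∈ distTriang T)

/-- the structure map `MU^{⊗ 1} ⟶ 𝟙 ⊗ (MU ⊗ M)` -/
noncomputable def io0 (D : MUData T) {M : T} (iM : 𝟙_ T ⟶ M) :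
    Am D.R 1 ⟶ 𝟙_ T ⊗ (D.R ⊗ M) := (𝟙 (𝟙_ T)) ⊗ₘ q0 D iM

theorem io0_eq {M : T} (iM : 𝟙_ T ⟶ M) : io0 D iM =
    (ρ_ (Am D.R 1)).inv ≫ (Am D.R 1 ◁ iM) ≫ (α_ (𝟙_ T) D.R M).hom := ioC0_eq D iM

variable [MonObj (𝟙_ T ⊗ (D.R ⊗ M))] [IsMonHom (io0 D iM)]

include HA hM

theorem surj_io0 : Function.Surjective fun z : Cob Laz 0 =>
    HRing.map (E := stdEven T) (io0 D iM) (D.ev 0 z) := by
  intro y
  induction y using DirectSum.induction_on with
  | zero => exact ⟨0, by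
      dsimp only
      rw [map_zero, map_zero]⟩
  | of w f =>
    obtain ⟨z, a, -, h2, h3⟩ := HA.surj p 0 M iM δM hM w (f ≫ (α_ (𝟙_ T) D.R M).inv)
    refine ⟨z, ?_⟩
    have h4 : f = a ≫ io0 D iM := by
      rw [← cancel_mono (α_ (𝟙_ T) D.R M).inv, io0_eq, h3]
      simp only [Category.assoc, Iso.hom_inv_id, Category.comp_id]
    dsimp only
    rw [h2, HRing.map_of, h4]
  | add x y hx hy =>
    obtain ⟨a, ha⟩ := hx
    obtain ⟨b, hb⟩ := hy
    exact ⟨a + b, by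
      dsimp only at ha hb ⊢
      rw [map_add, map_add, ha, hb]⟩

theorem ker_io0 (z : Cob Laz 0) : HRing.map (E := stdEven T) (io0 D iM) (D.ev 0 z) = 0 ↔
    z ∈ CI p 1 0 := by
  have hp : HRing.map (E := stdEven T) (io0 D iM) (D.ev 0 (p : Cob Laz 0)) = 0 := by
    have h0 : ((p : ℤ) • 𝟙 (𝟙_ T)) ≫ iM = 0 := comp_distTriang_mor_zero₁₂ _ hM
    rw [Preadditive.zsmul_comp, Category.id_comp] at h0
    have h1 : (p : ℤ) • io0 D iM = 0 := by
      rw [io0_eq, ← Preadditive.comp_zsmul, ← Preadditive.zsmul_comp, ← Vale.Agent.P251.X.whiskerLeft_zsmul', h0,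
        MonoidalPreadditive.whiskerLeft_zero, zero_comp, comp_zero]
    have h2 : (p : HRing (stdEven T) (𝟙_ T ⊗ (D.R ⊗ M))) =
        (p : ℤ) • HRing.of (stdEven T) (𝟙_ T ⊗ (D.R ⊗ M)) 0
          (((stdEven T).zero.inv ≫ η[Am D.R 1]) ≫ io0 D iM) := by
      rw [← HRing.map_of, of_one, map_one, zsmul_eq_mul, _root_.mul_one, Int.cast_natCast]
    rw [map_natCast, map_natCast, h2, ← map_zsmul, ← Preadditive.comp_zsmul, h1, comp_zero]
    exact map_zero _
  constructor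
  · intro h
    obtain ⟨y, hy⟩ := exists_smul_of_hom (io0 D iM) (m := (p : ℤ)) (fun w z hz a ha h => by
      obtain ⟨y, -, hy⟩ := HA.ker p 0 M iM δM hM w z hz a ha (by
        rw [← cancel_mono (α_ (𝟙_ T) D.R M).hom, zero_comp]
        simp only [Category.assoc]
        rw [← io0_eq]
        exact h)
      exact ⟨y, hy⟩) z h
    rw [hy, zsmul_eq_mul, Int.cast_natCast, CI_succ 0 (0 : Fin 1)]
    refine ⟨y, ?_⟩
    rw [vv_zero, sub_self]
    exact zero_mem _
  · intro h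
    rw [CI_succ 0 (0 : Fin 1)] at h
    obtain ⟨w, hw⟩ := h
    have h1 : CI p 0 0 = ⊥ := by
      rw [CI, I_zero, Ideal.map_bot]
    rw [h1, Ideal.mem_bot, sub_eq_zero, vv_zero] at hw
    rw [hw, map_mul, map_mul, hp, zero_mul]

end base

end Vale.Agent.P241.EX
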