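import Vale.Agent.P241.EX.CobI
import Vale.Agent.P241.H882.KMapA

/-!
# P241, block EX: the homotopy of `A ⊗ MU`

`io : MU^{⊗ (k+1)} ⟶ A` a morphism of monoids which induces `Cob Laz k / I_{k+1} ≅ π_{2*} A`. Then
`Lam : Cob Laz (k+1) ⟶ π_{2*}(A ⊗ MU)` is onto with kernel `I_{k+1}`, and the odd homotopy of
`A ⊗ MU ⊗ Y` vanishes if the odd homotopy of `A ⊗ Y` vanishes.
-/

open CategoryTheory MonoidalCategory Limits Pretriangulated MonObj

set_option linter.unusedSectionVars false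

universe v u

namespace Vale.Agent.P241.EX

open Vale.Agent.P251.T Vale.Agent.P251.M Vale.Agent.P251.M.EvenSpheres Vale.Agent.P251.S
  Vale.Agent.P251.F Vale.Agent.P251.I Vale.Agent.P251.Z Vale.Agent.P251.H Vale.Agent.P251.X

section cob

/-- the edge from the first to the last vertex -/
def edge (k : ℕ) : Fin 2 → Fin (k + 2) := fun i => if i = 0 then 0 else Fin.last (k + 1)

theorem map_edge_X (k m : ℕ) : Cob.map (N := Laz) (edge k) (MvPolynomial.X ((0 : Fin 1), m)) =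
    MvPolynomial.X (Fin.last k, m) := by
  rw [Cob.map, Cob.ev_X, Chain.res_g]
  have h1 : edge k (Fin.succ (0 : Fin 1)) = (Fin.last k).succ := rfl
  have h0 : edge k 0 = 0 := rfl
  dsimp only
  rw [h1, h0, Cob.univ_g_zero, inv_one, _root_.mul_one, Cob.univ_g_succ, c_succ_strictMk]

theorem map_edge_monomial (k : ℕ) (a : ℕ →₀ ℕ) :
    Cob.map (N := Laz) (edge k) (MvPolynomial.monomial (Cob.last 0 a) 1) =
      MvPolynomial.monomial (Cob.last k a) 1 := by
  have h : ∀ s, (MvPolynomial.monomial (Cob.last s a) 1 : Cob Laz (s + 1)) =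
      a.prod fun i m => MvPolynomial.X (Fin.last s, i) ^ m := by
    intro s
    rw [MvPolynomial.monomial_eq, MvPolynomial.C_1, _root_.one_mul]
    unfold Cob.last
    rw [Finsupp.prod_mapDomain_index_inj (Cob.last_inj)]
  rw [h, h, map_finsuppProd]
  refine Finsupp.prod_congr fun i _ => ?_
  rw [map_pow]
  congr 1
  exact map_edge_X k i

end cob

variable {T : Type u} [Category.{v} T] [Preadditive T] [HasZeroObject T]
    [HasShift T ℤ] [∀ n : ℤ, (shiftFunctor T n).Additive] [Pretriangulated T] [IsTriangulated T]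
    [MonoidalCategory T] [SymmetricCategory T] [TensorTriangulated T] [MonoidalClosed T]
    [HasCoproducts.{0} T] [HasProducts.{0} T] [StableCat T] {D : MUData T}

variable {A : T} [MonObj A] {k : ℕ} (io : Am D.R (k + 1) ⟶ A) [IsMonHom io]

/-- the first structure map -/
noncomputable def u0 : D.R ⟶ A := Am.v D.R (0 : Fin (k + 1)) ≫ io

instance : IsMonHom (u0 io) := inferInstanceAs (IsMonHom (Am.v D.R (0 : Fin (k + 1)) ≫ io))

/-- `MU^{⊗ (k+2)} ⟶ A ⊗ MU` -/
noncomputable def ioR : Am D.R (k + 2) ⟶ A ⊗ D.R := io ▷ D.R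

instance : IsMonHom (ioR io) := inferInstanceAs (IsMonHom (io ▷ D.R))

theorem v_castSucc_ioR (i : Fin (k + 1)) :
    Am.v D.R i.castSucc ≫ ioR io = (Am.v D.R i ≫ io) ≫ inlM A D.R := by
  rw [Am.v_castSucc, Category.assoc, ioR, inlM_whiskerRight, Category.assoc]

theorem v_last_ioR : Am.v D.R (Fin.last (k + 1)) ≫ ioR io = inrM A D.R := by
  rw [Am.v_last, ioR, inrM_whiskerRight]

theorem toKR_u0 : D.toKR (u0 io) = Am.map D.R (edge k) ≫ ioR io := by
  apply Am.hom_ext (R := D.R) (n := 2)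
  intro i
  rw [Am.v_map_assoc]
  fin_cases i
  · change Am.v D.R (0 : Fin 2) ≫ D.toKR (u0 io) = Am.v D.R (Fin.castSucc (0 : Fin (k + 1))) ≫ _
    rw [D.v_zero_toKR, v_castSucc_ioR]
    rfl
  · change Am.v D.R (1 : Fin 2) ≫ D.toKR (u0 io) = Am.v D.R (Fin.last (k + 1)) ≫ _
    rw [D.v_one_toKR, v_last_ioR]

/-- the characteristic map of `A ⊗ MU` -/
noncomputable def Lam : Cob Laz (k + 1) →+* HRing (stdEven T) (A ⊗ D.R) :=
  (HRing.map (E := stdEven T) (ioR io)).comp (D.ev (k + 1))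

theorem Lam_apply (z : Cob Laz (k + 1)) :
    Lam io z = HRing.map (E := stdEven T) (ioR io) (D.ev (k + 1) z) := rfl

theorem Lam_castSucc (z : Cob Laz k) :
    Lam io (Cob.map (Fin.castSucc : Fin (k + 1) → Fin (k + 2)) z) =
      HRing.map (E := stdEven T) (inlM A D.R) (HRing.map (E := stdEven T) io (D.ev k z)) := by
  have h1 : Am.map D.R (Fin.castSucc : Fin (k + 1) → Fin (k + 2)) ≫ ioR io =
      io ≫ inlM A D.R := by
    rw [Am.map_castSucc, ioR, inlM_whiskerRight]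
  rw [Lam_apply, ← D.ev_map, ← RingHom.comp_apply, ← HRing.map_comp, HRing_map_congr h1,
    HRing.map_comp, RingHom.comp_apply]

theorem Lam_C (z : Laz) : Lam io (MvPolynomial.C z) =
    HRing.map (E := stdEven T) (inlM A D.R)
      (HRing.map (E := stdEven T) io (D.ev k (MvPolynomial.C z))) := by
  rw [← Lam_castSucc, Cob.map_C_of_zero _ (Fin.castSucc_zero')]

theorem Lam_last (a : ℕ →₀ ℕ) : Lam io (MvPolynomial.monomial (Cob.last k a) 1) =
    HRing.map (E := stdEven T) (D.toKR (u0 io))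
      (D.ev 1 (MvPolynomial.monomial (Cob.last 0 a) 1)) := by
  rw [Lam_apply, ← map_edge_monomial, ← D.ev_map, HRing_map_congr (toKR_u0 io), HRing.map_comp,
    RingHom.comp_apply]

theorem Lam_vv {p j : ℕ} (i : Fin (k + 2)) : Lam io (vv p j (Fv (k + 1) i)) =
    HRing.of (stdEven T) (A ⊗ D.R) ((p ^ j : ℤ) - 1)
      (D.vel p j ≫ Am.v D.R i ≫ ioR io) := by
  rw [Lam_apply, vv_Fv_eq, HRing.map_of, Category.assoc]

theorem Lam_vv_last {p j : ℕ} : Lam io (vv p j (Fv (k + 1) (Fin.last (k + 1)))) =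
    HRing.of (stdEven T) (A ⊗ D.R) ((p ^ j : ℤ) - 1) (D.vel p j ≫ inrM A D.R) := by
  rw [Lam_vv, v_last_ioR]

section basis

variable {F : SpaceFunctor T} {e : F.S.obj CCF ≅ (stdEven T).L} (H : MUUniv e D)

include H

theorem exists_gb : ∃ b : GBasis (stdEven T) (inlM A D.R) (ℕ →₀ ℕ), ∀ a,
    HRing.of (stdEven T) (A ⊗ D.R) (b.k a) (b.w a) =
      Lam io (MvPolynomial.monomial (Cob.last k a) 1) := by
  obtain ⟨b, -, hb⟩ := D.exists_basis_of (u0 io) H
  exact ⟨b, fun a => by rw [hb, Lam_last]⟩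

/-- `Cob Laz (k+1) ⟶ π_{2*}(A ⊗ MU)` is onto. -/
theorem Lam_surjective
    (hs : Function.Surjective fun z : Cob Laz k => HRing.map (E := stdEven T) io (D.ev k z)) :
    Function.Surjective (Lam io) := by
  classical
  obtain ⟨b, hb⟩ := exists_gb io H
  intro x
  obtain ⟨y, rfl⟩ := (KP.bij_expR b Vale.Agent.P251.X.isSphere_std).2 x
  have hs' : ∀ y, ∃ z : Cob Laz k, HRing.map (E := stdEven T) io (D.ev k z) = y := hs
  choose z hz using hs'
  refine ⟨y.sum fun a m => Cob.map (Fin.castSucc : Fin (k + 1) → Fin (k + 2)) (z m) *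
    MvPolynomial.monomial (Cob.last k a) 1, ?_⟩
  rw [map_finsuppSum]
  refine Finsupp.sum_congr fun a _ => ?_
  rw [map_mul, Lam_castSucc, hb, hz]

/-- The kernel of `Cob Laz (k+1) ⟶ π_{2*}(A ⊗ MU)`. -/
theorem Lam_eq_zero_iff {p : ℕ} [Fact p.Prime] {j : ℕ}
    (hk : ∀ z : Cob Laz k, HRing.map (E := stdEven T) io (D.ev k z) = 0 ↔ z ∈ CI p j k)
    (z : Cob Laz (k + 1)) : Lam io z = 0 ↔ z ∈ CI p j (k + 1) := by
  classical
  constructor
  · intro h
    obtain ⟨b, hb⟩ := exists_gb io H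
    obtain ⟨y, rfl⟩ := exists_dec z
    rw [map_finsuppSum] at h
    let w : (ℕ →₀ ℕ) →₀ HRing (stdEven T) A := y.mapRange
      (fun z => HRing.map (E := stdEven T) io (D.ev k z)) (by rw [map_zero, map_zero])
    have h1 : (w.sum fun a m => HRing.map (E := stdEven T) (inlM A D.R) m *
        HRing.of (stdEven T) (A ⊗ D.R) (b.k a) (b.w a)) = 0 := by
      rw [Finsupp.sum_mapRange_index (fun a => by rw [map_zero, zero_mul]), ← h]
      refine Finsupp.sum_congr fun a _ => ?_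
      rw [map_mul, Lam_castSucc, hb]
    have h2 : w = 0 := (KP.bij_expR b Vale.Agent.P251.X.isSphere_std).1 (h1.trans Finsupp.sum_zero_index.symm)
    refine (CI p j (k + 1)).sum_mem fun a _ => Ideal.mul_mem_right _ _ (map_castSucc_mem ?_)
    have h3 : w a = 0 := by rw [h2, Finsupp.zero_apply]
    rw [Finsupp.mapRange_apply] at h3
    exact (hk _).1 h3
  · intro h
    have h1 : CI p j (k + 1) ≤ RingHom.ker (Lam io) := by
      unfold CI
      refine Ideal.map_le_iff_le_comap.2 fun x hx => ?_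
      rw [Ideal.mem_comap, RingHom.mem_ker, Lam_C, (hk _).2 (Ideal.mem_map_of_mem _ hx), map_zero]
    exact h1 h

omit [IsMonHom io] in
theorem odd_tensor_R (u : D.R ⟶ A) [IsMonHom u] {Y : T} (h : Odd0 (A ⊗ Y)) :
    Odd0 ((A ⊗ D.R) ⊗ Y) := by
  obtain ⟨b, -⟩ := D.exists_basis_of u H
  exact b.odd (Iso.refl _) Y h

omit [IsMonHom io] in
theorem odd_R (u : D.R ⟶ A) [IsMonHom u] (h : Odd0 A) : Odd0 (A ⊗ D.R) := by
  intro l f
  have h1 := odd_tensor_R H u (Y := 𝟙_ T) (fun l f => by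
    rw [← cancel_mono (ρ_ A).hom, zero_comp]
    exact h l _) l (f ≫ (ρ_ _).inv)
  rwa [← cancel_mono (ρ_ (A ⊗ D.R)).inv, zero_comp]

end basis

end Vale.Agent.P241.EX
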