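import Vale.Agent.P241.EX.Prod

/-!
# P241, block EX: the product `C ⊗ C ⟶ A ⊗ C` is central
-/

open CategoryTheory MonoidalCategory MonObj

set_option linter.unusedSectionVars false

universe v u

namespace Vale.Agent.P241.EX

open Vale.Agent.P251.M Vale.Agent.P251.S Vale.Agent.P251.X

variable {T : Type u} [Category.{v} T] [Preadditive T] [MonoidalCategory T]
  [MonoidalPreadditive T] [SymmetricCategory T]

/-- transfer of `Tr` through the exchange -/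
theorem Tr.sw {V M K W Y' : T} {b : V ⊗ M ⟶ M} {j : V ⊗ Y' ⟶ Y'} {H : W ⊗ (K ⊗ Y') ⟶ M}
    (h : Tr b (K ◁ j) (EX.sw K V Y') H) : Tr b (W ◁ j) (EX.sw W V Y') (EX.sw K W Y' ≫ H) := by
  unfold Tr at *
  rw [sw_nat₃_assoc, h, MonoidalCategory.whiskerLeft_comp_assoc, sw_yb_assoc]

@[reassoc]
theorem sw_tensor₁_inv (X X' B Y : T) :
    (α_ X X' (B ⊗ Y)).inv ≫ sw (X ⊗ X') B Y =
      X ◁ sw X' B Y ≫ sw X B (X' ⊗ Y) ≫ B ◁ (α_ X X' Y).inv := by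
  rw [Iso.inv_comp_eq, sw_tensor₁_assoc, ← MonoidalCategory.whiskerLeft_comp, Iso.hom_inv_id]
  simp

section comm

variable {A C P : T} [MonObj A] (m : P ⟶ A ⊗ C)

/-- the commutator of `m` and `A` -/
def comA : P ⊗ A ⟶ A ⊗ C := m ▷ A ≫ actr A C - (β_ P A).hom ≫ A ◁ m ≫ fact A C

theorem comA_nat {P' : T} (j : P' ⟶ P) : j ▷ A ≫ comA m = comA (j ≫ m) := by
  unfold comA
  rw [Preadditive.comp_sub, comp_whiskerRight_assoc,
    BraidedCategory.braiding_naturality_left_assoc, MonoidalCategory.whiskerLeft_comp_assoc]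

theorem comA_unit (k : P ⟶ C) : comA (k ≫ FM.unit A C) = 0 := by
  unfold comA
  rw [comp_whiskerRight_assoc, unit_actr, MonoidalCategory.whiskerLeft_comp_assoc, unit_fact,
    BraidedCategory.braiding_naturality_left, Category.comp_id, sub_self]

theorem comA_central {Q : T} (i : Q ⟶ A) (hi : (β_ Q A).hom ≫ A ◁ i ≫ μ[A] = i ▷ A ≫ μ[A]) :
    P ◁ i ≫ comA m = 0 := by
  unfold comA
  rw [Preadditive.comp_sub, whisker_exchange_assoc, central_actr i hi,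
    BraidedCategory.braiding_naturality_left_assoc,
    BraidedCategory.braiding_naturality_right_assoc, whisker_exchange_assoc, sub_self]

theorem fact_fact (A X : T) [MonObj A] :
    μ[A] ▷ (A ⊗ X) ≫ fact A X = (α_ A A (A ⊗ X)).hom ≫ A ◁ fact A X ≫ fact A X := by
  have h1 := (ModStr.free A X).mul_act
  rwa [free_act] at h1

/-- the commutator is a derivation -/
theorem comA_der {V : T} (f : V ⟶ A) (hf : P ◁ f ≫ comA m = 0) :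
    P ◁ (f ▷ A ≫ μ[A]) ≫ comA m = sw P V A ≫ V ◁ comA m ≫ f ▷ (A ⊗ C) ≫ fact A C := by
  have e1 : m ▷ V ≫ (A ⊗ C) ◁ f ≫ actr A C =
      (β_ P V).hom ≫ V ◁ m ≫ f ▷ (A ⊗ C) ≫ fact A C := by
    unfold comA at hf
    rw [Preadditive.comp_sub, sub_eq_zero, whisker_exchange_assoc,
      BraidedCategory.braiding_naturality_right_assoc, ← whisker_exchange_assoc f m] at hf
    exact hf
  have e2 : P ◁ (f ▷ A ≫ μ[A]) ≫ m ▷ A ≫ actr A C =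
      sw P V A ≫ V ◁ (m ▷ A ≫ actr A C) ≫ f ▷ (A ⊗ C) ≫ fact A C := by
    have h1 : (A ⊗ C) ◁ μ[A] ≫ actr A C = (α_ (A ⊗ C) A A).inv ≫ actr A C ▷ A ≫ actr A C := by
      rw [actr_eq, H24.rmul_rmul, Iso.inv_hom_id_assoc]
    have h2 : fact A C ▷ A ≫ actr A C = (α_ A (A ⊗ C) A).hom ≫ A ◁ actr A C ≫ fact A C := by
      rw [actr_eq, H24.fact_rmul]
    have h3 : P ◁ (f ▷ A ≫ μ[A]) ≫ m ▷ A ≫ actr A C =
        (α_ P V A).inv ≫ (m ▷ V ≫ (A ⊗ C) ◁ f ≫ actr A C) ▷ A ≫ actr A C := by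
      rw [whisker_exchange_assoc, MonoidalCategory.whiskerLeft_comp_assoc, h1]
      simp only [comp_whiskerRight, Category.assoc]
      rw [associator_inv_naturality_middle_assoc, associator_inv_naturality_left_assoc]
    rw [h3, e1]
    simp only [comp_whiskerRight, Category.assoc]
    rw [h2, associator_naturality_left_assoc, associator_naturality_middle_assoc,
      ← whisker_exchange_assoc]
    unfold sw
    simp only [MonoidalCategory.whiskerLeft_comp, Category.assoc]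
  have e3 : P ◁ (f ▷ A ≫ μ[A]) ≫ (β_ P A).hom ≫ A ◁ m ≫ fact A C =
      sw P V A ≫ V ◁ ((β_ P A).hom ≫ A ◁ m ≫ fact A C) ≫ f ▷ (A ⊗ C) ≫ fact A C := by
    rw [BraidedCategory.braiding_naturality_right_assoc, ← whisker_exchange_assoc,
      comp_whiskerRight_assoc, fact_fact, associator_naturality_left_assoc,
      associator_naturality_right_assoc, braid_right_sw]
    simp only [MonoidalCategory.whiskerLeft_comp, Category.assoc]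
    rw [Iso.inv_hom_id_assoc, ← whisker_exchange_assoc]
  have e4 : comA m = m ▷ A ≫ actr A C - (β_ P A).hom ≫ A ◁ m ≫ fact A C := rfl
  have e5 : V ◁ (m ▷ A ≫ actr A C - (β_ P A).hom ≫ A ◁ m ≫ fact A C) =
      V ◁ (m ▷ A ≫ actr A C) - V ◁ ((β_ P A).hom ≫ A ◁ m ≫ fact A C) := (tensorLeft V).map_sub
  rw [e4, Preadditive.comp_sub, e2, e3, e5, Preadditive.sub_comp, Preadditive.comp_sub]

end comm

namespace CData

variable {A R C Z S : T} [MonObj A] [MonObj R] (d : CData A R C Z S)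

theorem eqv_comA {P : T} {κ : R ⊗ P ⟶ P} {m : P ⟶ A ⊗ C} (hm : Eqv κ (kR A d.act) m) :
    Eqv (kL κ A) (kR A d.act) (comA m) :=
  ((hm.whiskerRight A).comp (eqv_actr d.act)).sub
    ((eqv_braid₁ κ A).comp ((hm.whiskerLeft A).comp (eqv_fact d.act A)))

theorem comm_b (V : T) (f : V ⟶ A) {M : T} (l : ModStr (A ⊗ R) M) :
    R ◁ (f ▷ M ≫ lam l) ≫ rho l = sw R V M ≫ V ◁ rho l ≫ f ▷ M ≫ lam l := by
  rw [MonoidalCategory.whiskerLeft_comp_assoc, lam_rho, sw_nat₂_assoc, ← whisker_exchange_assoc]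

variable {𝒲 : T → Prop} (h : d.Van 𝒲)
include h

/-- a bilinear map of two variables in `C` and a third variable -/
theorem bil [IsCommMonObj R] {M K : T} (l : ModStr (A ⊗ R) M) (hv : d.v ▷ M ≫ rho l = 0)
    (G : C ⊗ (C ⊗ K) ⟶ M)
    (e1 : Eqv (kL d.act (C ⊗ K)) (rho l) G) (e2 : Eqv (kR C (kL d.act K)) (rho l) G)
    (z1 : d.u1 ▷ (C ⊗ K) ≫ G = 0) (z2 : C ◁ (d.u1 ▷ K) ≫ G = 0) :
    ∃ (g1 : (Z ⊗ S) ⊗ (C ⊗ K) ⟶ M) (g : (Z ⊗ S) ⊗ ((Z ⊗ S) ⊗ K) ⟶ M),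
      G = d.ext l g1 ∧ sw C (Z ⊗ S) K ≫ g1 = d.ext l g := by
  obtain ⟨g1, hg1⟩ := d.fac l G ((d.lin_iff_eqv l G).2 e1) z1
  rw [hg1] at e2 z2
  have e3 := d.eqv_of_ext l hv g1 e2
  have z3 := d.zero_of_ext l hv _ g1 z2
  have e4 : Eqv (kL d.act ((Z ⊗ S) ⊗ K)) (rho l) (sw C (Z ⊗ S) K ≫ g1) :=
    (eqv_sw₁ d.act (Z ⊗ S) K).comp e3
  have z4 : d.u1 ▷ ((Z ⊗ S) ⊗ K) ≫ sw C (Z ⊗ S) K ≫ g1 = 0 := by
    rw [sw_nat₁_assoc, z3, Limits.comp_zero]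
  obtain ⟨g, hg⟩ := d.fac l _ ((d.lin_iff_eqv l _).2 e4) z4
  exact ⟨g1, g, hg1, hg⟩

theorem bil_zero {M K K' : T} (l : ModStr (A ⊗ R) M) (hv : d.v ▷ M ≫ rho l = 0)
    {G : C ⊗ (C ⊗ K) ⟶ M} {g1 : (Z ⊗ S) ⊗ (C ⊗ K) ⟶ M} {g : (Z ⊗ S) ⊗ ((Z ⊗ S) ⊗ K) ⟶ M}
    (hG : G = d.ext l g1) (hg : sw C (Z ⊗ S) K ≫ g1 = d.ext l g) (f : K' ⟶ K) :
    C ◁ (C ◁ f) ≫ G = 0 ↔ (Z ⊗ S) ◁ ((Z ⊗ S) ◁ f) ≫ g = 0 := by
  have h1 : C ◁ (C ◁ f) ≫ G = 0 ↔ (Z ⊗ S) ◁ (C ◁ f) ≫ g1 = 0 := by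
    rw [hG]
    constructor
    · exact d.zero_of_ext l hv _ g1
    · intro h2
      rw [ext_nat, h2, ext_zero]
  have h2 : (Z ⊗ S) ◁ (C ◁ f) ≫ g1 = 0 ↔ C ◁ ((Z ⊗ S) ◁ f) ≫ sw C (Z ⊗ S) K ≫ g1 = 0 := by
    rw [sw_nat₃_assoc]
    constructor
    · intro h3
      rw [h3, Limits.comp_zero]
    · intro h3
      have h4 := congrArg (fun x ↦ sw (Z ⊗ S) C K' ≫ x) h3
      simpa using h4
  have h3 : C ◁ ((Z ⊗ S) ◁ f) ≫ sw C (Z ⊗ S) K ≫ g1 = 0 ↔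
      (Z ⊗ S) ◁ ((Z ⊗ S) ◁ f) ≫ g = 0 := by
    rw [hg]
    constructor
    · exact d.zero_of_ext l hv _ g
    · intro h2
      rw [ext_nat, h2, ext_zero]
  rw [h1, h2, h3]

theorem comA_eq_zero [IsCommMonObj R] {Q : T} (i : Q ⟶ A)
    (hi : (β_ Q A).hom ≫ A ◁ i ≫ μ[A] = i ▷ A ≫ μ[A]) (hN : NoDer 𝒲 i) (m : C ⊗ C ⟶ A ⊗ C)
    (e1 : Eqv (kL d.act C) (kR A d.act) m) (e2 : Eqv (kR C d.act) (kR A d.act) m)
    (z1 : d.u1 ▷ C ≫ m = (λ_ C).hom ≫ FM.unit A C)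
    (z2 : C ◁ d.u1 ≫ m = (ρ_ C).hom ≫ FM.unit A C) : comA m = 0 := by
  have hv := d.hv h
  have e3 : Eqv (kL d.act (C ⊗ A)) (rho d.lE) ((α_ C C A).inv ≫ comA m) := by
    rw [rho_lE]
    exact (eqv_assoc₁ d.act C A).inv.comp (d.eqv_comA e1)
  have e4 : Eqv (kR C (kL d.act A)) (rho d.lE) ((α_ C C A).inv ≫ comA m) := by
    rw [rho_lE]
    exact (eqv_assoc₂ d.act C A).inv.comp (d.eqv_comA e2)
  have z3 : d.u1 ▷ (C ⊗ A) ≫ (α_ C C A).inv ≫ comA m = 0 := by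
    rw [associator_inv_naturality_left_assoc, comA_nat, z1, comA_unit, Limits.comp_zero]
  have z4 : C ◁ (d.u1 ▷ A) ≫ (α_ C C A).inv ≫ comA m = 0 := by
    rw [associator_inv_naturality_middle_assoc, comA_nat, z2, comA_unit, Limits.comp_zero]
  obtain ⟨g1, g, hG, hg⟩ := d.bil h d.lE hv _ e3 e4 z3 z4
  have k1 : ∀ {V : T} (f : V ⟶ A), (C ⊗ C) ◁ f ≫ comA m = 0 ↔
      C ◁ (C ◁ f) ≫ (α_ C C A).inv ≫ comA m = 0 := by
    intro V f
    rw [associator_inv_naturality_right_assoc]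
    constructor
    · intro h3
      rw [h3, Limits.comp_zero]
    · intro h3
      rw [← cancel_epi (α_ C C V).inv, h3, Limits.comp_zero]
  have k2 : ∀ {V : T} (f : V ⟶ A),
      f ▷ ((Z ⊗ S) ⊗ (Z ⊗ S)) ≫ (β_ A ((Z ⊗ S) ⊗ (Z ⊗ S))).hom ≫ (α_ (Z ⊗ S) (Z ⊗ S) A).hom ≫ g =
        (β_ V ((Z ⊗ S) ⊗ (Z ⊗ S))).hom ≫ (α_ (Z ⊗ S) (Z ⊗ S) V).hom ≫
          (Z ⊗ S) ◁ ((Z ⊗ S) ◁ f) ≫ g := by
    intro V f
    rw [BraidedCategory.braiding_naturality_left_assoc, associator_naturality_right_assoc]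
  have k3 : (β_ A ((Z ⊗ S) ⊗ (Z ⊗ S))).hom ≫ (α_ (Z ⊗ S) (Z ⊗ S) A).hom ≫ g = 0 := by
    refine hN (A ⊗ C) ((Z ⊗ S) ⊗ (Z ⊗ S)) (ModStr.free A C) h.h3 _ ?_ ?_
    · intro V f hf
      have q1 : (Z ⊗ S) ◁ ((Z ⊗ S) ◁ f) ≫ g = 0 := by
        rw [k2] at hf
        rwa [← cancel_epi (α_ (Z ⊗ S) (Z ⊗ S) V).hom,
          ← cancel_epi (β_ V ((Z ⊗ S) ⊗ (Z ⊗ S))).hom, Limits.comp_zero, Limits.comp_zero]
      have q2 : (C ⊗ C) ◁ f ≫ comA m = 0 :=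
        (k1 f).2 ((d.bil_zero h d.lE hv hG hg f).2 q1)
      have q3 := comA_der m f q2
      rw [← lam_lE d] at q3
      have q4 : Tr (f ▷ (A ⊗ C) ≫ lam d.lE) (C ◁ (f ▷ A ≫ μ[A])) (sw C V A)
          ((α_ C C A).inv ≫ comA m) := by
        unfold Tr
        rw [associator_inv_naturality_right_assoc, q3, MonoidalCategory.whiskerLeft_comp_assoc,
          sw_tensor₁_inv_assoc]
      rw [hG] at q4
      have q5 := (d.tr_of_ext d.lE hv _ (comm_b V f d.lE) _ _ _ q4).sw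
      rw [hg] at q5
      have q6 := d.tr_of_ext d.lE hv _ (comm_b V f d.lE) _ _ _ q5
      unfold Tr at q6
      rw [k2, q6, free_act, lam_lE, sw_tensor₁_assoc, braid_sw_assoc]
      simp only [MonoidalCategory.whiskerLeft_comp, Category.assoc]
    · rw [k2, (d.bil_zero h d.lE hv hG hg i).1 ((k1 i).1 (comA_central m i hi)),
        Limits.comp_zero, Limits.comp_zero]
  have k4 : g = 0 := by
    rwa [← cancel_epi (α_ (Z ⊗ S) (Z ⊗ S) A).hom,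
      ← cancel_epi (β_ A ((Z ⊗ S) ⊗ (Z ⊗ S))).hom, Limits.comp_zero, Limits.comp_zero]
  have k5 := (d.bil_zero h d.lE hv hG hg (𝟙 A)).2 (by rw [k4, Limits.comp_zero])
  have k6 := (k1 (𝟙 A)).2 k5
  simpa using k6

end CData

end Vale.Agent.P241.EX
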