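import Vale.Agent.P251.X.KExists
import Vale.Agent.P251.M.CobDec

/-!
# P241, block EX: `Cob Laz n` modulo `I_j`

* `Fv n i` : the law of the `i`-th vertex over `Cob Laz n`, `D.law_map_Fv`;
* `CI p j n = I_j Cob Laz n`; `vv_Fv_mem`, `vv_Fv_sub_mem` (invariance), `mem_CI_of_mul`
  (regularity), `CI_succ`;
* `exists_dec` : an element of `Cob Laz (k+1)` is `∑ z_a b^a`, `z_a ∈ Cob Laz k`.
-/

open CategoryTheory MonoidalCategory Limits Pretriangulated MonObj

set_option linter.unusedSectionVars false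

universe v u

namespace Vale.Agent.P241.EX

open Vale.Agent.P251.T Vale.Agent.P251.M Vale.Agent.P251.M.EvenSpheres Vale.Agent.P251.S
  Vale.Agent.P251.F Vale.Agent.P251.I Vale.Agent.P251.Z Vale.Agent.P251.H Vale.Agent.P251.X

section alg

/-- the law of the `i`-th vertex -/
noncomputable def Fv (n : ℕ) (i : Fin (n + 1)) : Law (Cob Laz n) :=
  (Cob.univ Laz n).g i • Laz.univ.map MvPolynomial.C

/-- `I_j Cob Laz n` -/
noncomputable def CI (p j n : ℕ) : Ideal (Cob Laz n) :=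
  (Laz.I p j).map (MvPolynomial.C : Laz →+* Cob Laz n)

theorem CI_eq (p j n : ℕ) : CI p j n = Ih p j (Laz.univ.map (MvPolynomial.C : Laz →+* Cob Laz n)) :=
  Laz.I_map p j _

theorem CI_mono {p i j n : ℕ} (h : i ≤ j) : CI p i n ≤ CI p j n := by
  rw [CI_eq, CI_eq, Ih, Ideal.span_le]
  rintro _ ⟨l, hl, rfl⟩
  exact vv_mem_Ih (lt_of_lt_of_le hl h) _

variable {p : ℕ} [Fact p.Prime] {n : ℕ}

theorem Ih_Fv (j : ℕ) (i : Fin (n + 1)) : Ih p j (Fv n i) = CI p j n := by
  rw [CI_eq, Fv, Ih_smul]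

theorem vv_Fv_mem {i j : ℕ} (hi : i < j) (m : Fin (n + 1)) : vv p i (Fv n m) ∈ CI p j n := by
  rw [← Ih_Fv j m]
  exact vv_mem_Ih hi _

theorem vv_Fv_sub_mem (j : ℕ) (m : Fin (n + 1)) :
    vv p j (Fv n m) - MvPolynomial.C (Laz.v p j) ∈ CI p j n := by
  have h := vv_smul_sub_mem p j (Laz.univ.map (MvPolynomial.C : Laz →+* Cob Laz n))
    ((Cob.univ Laz n).g m)
  have h1 : ((Cob.univ Laz n).g m).c 0 = 1 := (Cob.univ Laz n).strict m
  rw [h1, one_pow, _root_.mul_one, _root_.one_mul, ← CI_eq, vv_map] at h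
  exact h

theorem vv_Fv_sub_mem' (j : ℕ) (m m' : Fin (n + 1)) :
    vv p j (Fv n m) - vv p j (Fv n m') ∈ CI p j n := by
  have h := (CI p j n).sub_mem (vv_Fv_sub_mem (p := p) j m) (vv_Fv_sub_mem (p := p) j m')
  rwa [sub_sub_sub_cancel_right] at h

/-- Regularity. -/
theorem mem_CI_of_mul {j : ℕ} {m : Fin (n + 1)} {a : Cob Laz n}
    (h : vv p j (Fv n m) * a ∈ CI p j n) : a ∈ CI p j n := by
  apply mem_map_C_I_of_v_mul p le_rfl
  have h1 := (CI p j n).sub_mem h ((CI p j n).mul_mem_right a (vv_Fv_sub_mem (p := p) j m))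
  rw [← sub_mul, sub_sub_cancel] at h1
  exact h1

theorem CI_succ (j : ℕ) (m : Fin (n + 1)) {z : Cob Laz n} :
    z ∈ CI p (j + 1) n ↔ ∃ w, z - vv p j (Fv n m) * w ∈ CI p j n := by
  constructor
  · intro h
    rw [← Ih_Fv (j + 1) m, Ih] at h
    induction h using Submodule.span_induction with
    | mem x hx =>
      obtain ⟨i, hi, rfl⟩ := hx
      rcases Nat.lt_succ_iff_lt_or_eq.1 hi with h' | rfl
      · exact ⟨0, by rw [mul_zero, sub_zero]; exact vv_Fv_mem h' m⟩
      · exact ⟨1, by rw [_root_.mul_one, sub_self]; exact zero_mem _⟩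
    | zero => exact ⟨0, by rw [mul_zero, sub_zero]; exact zero_mem _⟩
    | add x y _ _ hx hy =>
      obtain ⟨a, ha⟩ := hx
      obtain ⟨b, hb⟩ := hy
      refine ⟨a + b, ?_⟩
      have := (CI p j n).add_mem ha hb
      rwa [sub_add_sub_comm, ← mul_add] at this
    | smul c x _ hx =>
      obtain ⟨a, ha⟩ := hx
      refine ⟨c * a, ?_⟩
      have := (CI p j n).mul_mem_left c ha
      rwa [mul_sub, mul_left_comm] at this
  · rintro ⟨w, hw⟩
    have h1 := (CI p (j + 1) n).add_mem (CI_mono (Nat.le_succ j) hw)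
      ((CI p (j + 1) n).mul_mem_right w (vv_Fv_mem (Nat.lt_succ_self j) m))
    rwa [sub_add_cancel] at h1

theorem map_castSucc_mem {j : ℕ} {z : Cob Laz n} (hz : z ∈ CI p j n) :
    Cob.map (Fin.castSucc : Fin (n + 1) → Fin (n + 2)) z ∈ CI p j (n + 1) := by
  have h1 : (CI p j n).map (Cob.map (Fin.castSucc : Fin (n + 1) → Fin (n + 2))) ≤
      CI p j (n + 1) := by
    unfold CI
    rw [Ideal.map_map]
    refine Ideal.map_le_iff_le_comap.2 fun x hx => ?_
    rw [Ideal.mem_comap, RingHom.comp_apply, Cob.map_C_of_zero _ (Fin.castSucc_zero')]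
    exact Ideal.mem_map_of_mem _ hx
  exact h1 (Ideal.mem_map_of_mem _ hz)

omit [Fact p.Prime] in
/-- `Cob Laz (k+1) = ⊕ Cob Laz k b^a`. -/
theorem exists_dec (z : Cob Laz (n + 1)) : ∃ y : (ℕ →₀ ℕ) →₀ Cob Laz n,
    z = y.sum fun a w => Cob.map (Fin.castSucc : Fin (n + 1) → Fin (n + 2)) w *
      MvPolynomial.monomial (Cob.last n a) 1 := by
  classical
  induction z using MvPolynomial.induction_on' with
  | monomial m r =>
    obtain ⟨⟨a, c⟩, rfl⟩ := Cob.bijective_last_incl.2 m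
    refine ⟨Finsupp.single a (MvPolynomial.monomial c r), ?_⟩
    rw [Finsupp.sum_single_index (by rw [map_zero, zero_mul]), Cob.map_castSucc_monomial,
      MvPolynomial.monomial_mul, _root_.mul_one, add_comm (Cob.incl c)]
  | add x y hx hy =>
    obtain ⟨a, ha⟩ := hx
    obtain ⟨b, hb⟩ := hy
    refine ⟨a + b, ?_⟩
    rw [Finsupp.sum_add_index' (fun _ => by rw [map_zero, zero_mul])
      (fun _ _ _ => by rw [map_add, add_mul]), ← ha, ← hb]

end alg

section law

variable {T : Type u} [Category.{v} T] [Preadditive T] [HasZeroObject T]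
    [HasShift T ℤ] [∀ n : ℤ, (shiftFunctor T n).Additive] [Pretriangulated T] [IsTriangulated T]
    [MonoidalCategory T] [SymmetricCategory T] [TensorTriangulated T] [MonoidalClosed T]
    [HasCoproducts.{0} T] [HasProducts.{0} T] [StableCat T] (D : MUData T)

/-- the laws of the vertices of `R^{⊗ (n+1)}` -/
theorem law_map_Fv {n : ℕ} (i : Fin (n + 1)) :
    D.law.map (HRing.map (E := stdEven T) (Am.v D.R i)) = (Fv n i).map (D.ev n) := by
  rw [D.law_map_v, Fv, InvSeries.map_smul, Law.map_map]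

theorem vv_Fv_eq {p j n : ℕ} (i : Fin (n + 1)) : D.ev n (vv p j (Fv n i)) =
    HRing.of (stdEven T) (Am D.R (n + 1)) ((p ^ j : ℤ) - 1) (D.vel p j ≫ Am.v D.R i) := by
  rw [← vv_map, ← law_map_Fv, vv_map, D.vel_spec, HRing.map_of]

end law

end Vale.Agent.P241.EX
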