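import Vale.Agent.P241.EX.BasisA

/-!
# P241, block EX: the homotopy of `A ⊗ (MU/v_j)`

`io : MU^{⊗ (k+1)} ⟶ A` with `Cob Laz k / I_j ≅ π_{2*} A`, odd homotopy `0`; `C = MU/v_j`.

* `vel_io_eq_zero` : `v_i = 0` in `A`, `i < j`; `inv_A` : invariance of `v_j`;
* `regular_A` : `v_j` is regular on `π_*(A ⊗ MU)`; `odd_cof_A`, `surj_cof_A`;
* `ker_cof_A`, `surj_ev_cof_A` : `Cob Laz (k+1) / I_{j+1} ≅ π_{2*}(A ⊗ C)`.
-/

open CategoryTheory MonoidalCategory Limits Pretriangulated MonObj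

set_option linter.unusedSectionVars false

universe v u

namespace Vale.Agent.P241.EX

open Vale.Agent.P251.T Vale.Agent.P251.M Vale.Agent.P251.M.EvenSpheres Vale.Agent.P251.S
  Vale.Agent.P251.F Vale.Agent.P251.I Vale.Agent.P251.Z Vale.Agent.P251.H Vale.Agent.P251.X

variable {T : Type u} [Category.{v} T] [Preadditive T] [HasZeroObject T]
    [HasShift T ℤ] [∀ n : ℤ, (shiftFunctor T n).Additive] [Pretriangulated T] [IsTriangulated T]
    [MonoidalCategory T] [SymmetricCategory T] [TensorTriangulated T] [MonoidalClosed T]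
    [HasCoproducts.{0} T] [HasProducts.{0} T] [StableCat T] {D : MUData T}

variable {A : T} [MonObj A] {k : ℕ} (io : Am D.R (k + 1) ⟶ A) [IsMonHom io]
  {p : ℕ} [Fact p.Prime] {j : ℕ}
  (hk : ∀ z : Cob Laz k, HRing.map (E := stdEven T) io (D.ev k z) = 0 ↔ z ∈ CI p j k)

include hk in
/-- `v_i = 0`, `i < j`, in `A` -/
theorem vel_io_eq_zero {i : ℕ} (hi : i < j) (m : Fin (k + 1)) :
    D.vel p i ≫ Am.v D.R m ≫ io = 0 := by
  have h1 := (hk _).2 (vv_Fv_mem (p := p) (n := k) hi m)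
  rw [vv_Fv_eq, HRing.map_of, Category.assoc] at h1
  exact DirectSum.of_injective (β := (stdEven T).Gr A) _
    (h1.trans (map_zero (DirectSum.of ((stdEven T).Gr A) ((p ^ i : ℤ) - 1))).symm)

section H

variable {F : SpaceFunctor T} {e : F.S.obj CCF ≅ (stdEven T).L} (H : MUUniv e D)

include H hk

/-- invariance of `v_j` in `(A ⊗ MU) ⊗ MU` -/
theorem inv_A : D.vel p j ≫ inrM A D.R ≫ inlM (A ⊗ D.R) D.R =
    D.vel p j ≫ inrM (A ⊗ D.R) D.R := by
  have hk' : ∀ z : Cob Laz (k + 1),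
      HRing.map (E := stdEven T) (ioR io) (D.ev (k + 1) z) = 0 ↔ z ∈ CI p j (k + 1) :=
    Lam_eq_zero_iff io H hk
  have h1 := (Lam_eq_zero_iff (ioR io) H hk' _).2
    (vv_Fv_sub_mem' (p := p) (n := k + 2) j (Fin.last (k + 1)).castSucc (Fin.last (k + 2)))
  rw [map_sub, sub_eq_zero, Lam_vv, Lam_vv, v_last_ioR, v_castSucc_ioR, v_last_ioR] at h1
  exact DirectSum.of_injective (β := (stdEven T).Gr ((A ⊗ D.R) ⊗ D.R)) _ h1

variable (hs : Function.Surjective fun z : Cob Laz k => HRing.map (E := stdEven T) io (D.ev k z))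

include hs

/-- regularity of `v_j` on `π_*(A ⊗ MU)` -/
theorem regular_A {m n : ℤ} (h : m + ((p ^ j : ℤ) - 1) = n) (x : (stdEven T).S m ⟶ A ⊗ D.R)
    (hx : gmul h x (D.vel p j ≫ inrM A D.R) = 0) : x = 0 := by
  obtain ⟨z, hz⟩ := Lam_surjective io H hs (HRing.of (stdEven T) (A ⊗ D.R) m x)
  have h1 : Lam io (z * vv p j (Fv (k + 1) (Fin.last (k + 1)))) = 0 := by
    rw [map_mul, hz, Lam_vv_last, of_mul_of h, hx]
    exact map_zero _
  rw [Lam_eq_zero_iff io H hk, mul_comm] at h1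
  have h2 := (Lam_eq_zero_iff io H hk _).2 (mem_CI_of_mul h1)
  rw [hz] at h2
  exact DirectSum.of_injective (β := (stdEven T).Gr (A ⊗ D.R)) _ (h2.trans (map_zero _).symm)

variable {C : T} (q : D.R ⟶ C) (δ : C ⟶ (D.R ⊗ (stdEven T).S ((p ^ j : ℤ) - 1))⟦(1 : ℤ)⟧)
  (hC : Triangle.mk (D.R ◁ D.vel p j ≫ μ[D.R]) q δ ∈ distTriang T)

include hC

/-- the odd homotopy of `A ⊗ (MU/v_j)` -/
theorem odd_cof_A (odd : Odd0 A) : Odd0 (A ⊗ C) :=
  Vale.Agent.P251.X.odd_cof _ q δ hC (odd_R H (u0 io) odd) fun m n h y hy =>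
    regular_A io hk H hs h y hy

variable [MonObj (A ⊗ C)] [IsMonHom (A ◁ q)]

omit [IsMonHom io] [Fact p.Prime] hk hs in
/-- `π_*(A ⊗ MU) ⟶ π_{2*}(A ⊗ C)` is onto -/
theorem surj_map_cof (u : D.R ⟶ A) [IsMonHom u] (odd : Odd0 A) :
    Function.Surjective (HRing.map (E := stdEven T) (A ◁ q)) :=
  map_surjective_of _ (Vale.Agent.P251.X.surj_cof _ q δ hC (odd_R H u odd))

omit hk in
/-- `Cob Laz (k+1) ⟶ π_{2*}(A ⊗ C)` is onto -/
theorem surj_ev_cof_A (odd : Odd0 A) : Function.Surjective fun z : Cob Laz (k + 1) =>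
    HRing.map (E := stdEven T) (ioR io ≫ A ◁ q) (D.ev (k + 1) z) := by
  intro y
  obtain ⟨x, rfl⟩ := surj_map_cof H q δ hC (u0 io) odd y
  obtain ⟨z, rfl⟩ := Lam_surjective io H hs x
  refine ⟨z, ?_⟩
  dsimp only
  rw [HRing.map_comp, RingHom.comp_apply, Lam_apply]

/-- the kernel of `Cob Laz (k+1) ⟶ π_{2*}(A ⊗ C)` -/
theorem ker_cof_A (z : Cob Laz (k + 1)) :
    HRing.map (E := stdEven T) (ioR io ≫ A ◁ q) (D.ev (k + 1) z) = 0 ↔
      z ∈ CI p (j + 1) (k + 1) := by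
  rw [CI_succ j (Fin.last (k + 1)), HRing.map_comp, RingHom.comp_apply, ← Lam_apply]
  have hV : HRing.map (E := stdEven T) (A ◁ q)
      (Lam io (vv p j (Fv (k + 1) (Fin.last (k + 1))))) = 0 := by
    rw [Lam_vv_last, HRing.map_of, comp_inrM_q _ q δ hC]
    exact map_zero _
  constructor
  · intro h
    obtain ⟨y, hy⟩ := exists_mul_of_map_eq_zero (A ◁ q)
      (Lam io (vv p j (Fv (k + 1) (Fin.last (k + 1)))))
      (fun n x hx => by
        have h' : (n - ((p ^ j : ℤ) - 1)) + ((p ^ j : ℤ) - 1) = n := sub_add_cancel _ _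
        obtain ⟨y, rfl⟩ := exists_of_comp_eq_zero _ q δ hC h' x hx
        obtain ⟨w, hw⟩ := Lam_surjective io H hs (HRing.of (stdEven T) _ _ y)
        refine ⟨HRing.of (stdEven T) _ _ y, ?_⟩
        rw [← hw, ← map_mul, mul_comm, map_mul, hw, Lam_vv_last, of_mul_of h']) h
    obtain ⟨w, rfl⟩ := Lam_surjective io H hs y
    refine ⟨w, ?_⟩
    rw [← Lam_eq_zero_iff io H hk, map_sub, map_mul, hy, sub_self]
  · rintro ⟨w, hw⟩
    rw [← Lam_eq_zero_iff io H hk, map_sub, map_mul, sub_eq_zero] at hw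
    rw [hw, map_mul, hV, zero_mul]

end H

end Vale.Agent.P241.EX
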