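import Vale.Agent.P241.EX.Cent

/-!
# P241, block EX: existence of the twisted product

`exists_twProd` : `C = R / v` has a central associative product with values in `A ⊗ C`.
-/

open CategoryTheory MonoidalCategory MonObj

set_option linter.unusedSectionVars false

universe v u

namespace Vale.Agent.P241.EX

open Vale.Agent.P251.M Vale.Agent.P251.S Vale.Agent.P251.X

variable {T : Type u} [Category.{v} T] [Preadditive T] [MonoidalCategory T]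
  [MonoidalPreadditive T] [SymmetricCategory T]

section

variable {A C : T} [MonObj A] (m : C ⊗ C ⟶ A ⊗ C)

/-- right multiplication by `C` -/
def rC : (A ⊗ C) ⊗ C ⟶ A ⊗ C := (α_ A C C).hom ≫ A ◁ m ≫ fact A C

/-- left multiplication by `C` -/
def lC : C ⊗ (A ⊗ C) ⟶ A ⊗ C := sw C A C ≫ A ◁ m ≫ fact A C

theorem unit_fact' {X : T} (f : X ⟶ A ⊗ C) : FM.unit A X ≫ A ◁ f ≫ fact A C = f := by
  have h := unit_act (ModStr.free A C) f
  rwa [free_act] at h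

theorem unit_rC : FM.unit A C ▷ C ≫ rC m = m := by
  unfold rC
  have h3 : FM.unit A C ▷ C ≫ (α_ A C C).hom = FM.unit A (C ⊗ C) := by
    unfold FM.unit
    monoidal
  rw [reassoc_of% h3, unit_fact']

theorem unit_lC : C ◁ FM.unit A C ≫ lC m = m := by
  unfold lC
  rw [unit_sw_unit_assoc, unit_fact']

variable {R : T} {κ : R ⊗ C ⟶ C}

theorem eqv_rC₁ (e1 : Eqv (kL κ C) (kR A κ) m) :
    Eqv (kL (kR A κ) C) (kR A κ) (rC m) :=
  (eqv_assoc₂ κ A C).comp ((e1.whiskerLeft A).comp (eqv_fact κ A))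

theorem eqv_rC₂ (e2 : Eqv (kR C κ) (kR A κ) m) :
    Eqv (kR (A ⊗ C) κ) (kR A κ) (rC m) :=
  (eqv_assoc₃ κ A C).comp ((e2.whiskerLeft A).comp (eqv_fact κ A))

theorem eqv_lC₁ (e1 : Eqv (kL κ C) (kR A κ) m) :
    Eqv (kL κ (A ⊗ C)) (kR A κ) (lC m) :=
  (eqv_sw₁ κ A C).comp ((e1.whiskerLeft A).comp (eqv_fact κ A))

theorem eqv_lC₂ (e2 : Eqv (kR C κ) (kR A κ) m) :
    Eqv (kR C (kR A κ)) (kR A κ) (lC m) :=
  (eqv_sw₃ κ C A).comp ((e2.whiskerLeft A).comp (eqv_fact κ A))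

/-- the associator of `m` -/
def assH : C ⊗ (C ⊗ C) ⟶ A ⊗ C := (α_ C C C).inv ≫ m ▷ C ≫ rC m - C ◁ m ≫ lC m

theorem eqv_assH₁ (e1 : Eqv (kL κ C) (kR A κ) m) :
    Eqv (kL κ (C ⊗ C)) (kR A κ) (assH m) :=
  ((eqv_assoc₁ κ C C).inv.comp ((e1.whiskerRight C).comp (eqv_rC₁ m e1))).sub
    ((eqv_kL κ m).comp (eqv_lC₁ m e1))

theorem eqv_assH₂ (e1 : Eqv (kL κ C) (kR A κ) m) (e2 : Eqv (kR C κ) (kR A κ) m) :
    Eqv (kR C (kL κ C)) (kR A κ) (assH m) :=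
  ((eqv_assoc₂ κ C C).inv.comp ((e2.whiskerRight C).comp (eqv_rC₁ m e1))).sub
    ((e1.whiskerLeft C).comp (eqv_lC₂ m e2))

theorem eqv_assH₃ (e2 : Eqv (kR C κ) (kR A κ) m) :
    Eqv (kR C (kR C κ)) (kR A κ) (assH m) :=
  ((eqv_assoc₃ κ C C).inv.comp ((eqv_kR κ m).comp (eqv_rC₂ m e2))).sub
    ((e2.whiskerLeft C).comp (eqv_lC₂ m e2))

variable (u : 𝟙_ T ⟶ C) (z1 : u ▷ C ≫ m = (λ_ C).hom ≫ FM.unit A C)
  (z2 : C ◁ u ≫ m = (ρ_ C).hom ≫ FM.unit A C)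

include z1 in
theorem assH_one₁ : u ▷ (C ⊗ C) ≫ assH m = 0 := by
  have h1 : u ▷ (C ⊗ C) ≫ (α_ C C C).inv ≫ m ▷ C ≫ rC m = (λ_ (C ⊗ C)).hom ≫ m := by
    rw [associator_inv_naturality_left_assoc, ← comp_whiskerRight_assoc, z1,
      comp_whiskerRight_assoc, unit_rC]
    monoidal
  have h2 : u ▷ (C ⊗ C) ≫ C ◁ m ≫ lC m = (λ_ (C ⊗ C)).hom ≫ m := by
    unfold lC
    rw [← whisker_exchange_assoc, sw_nat₁_assoc, ← MonoidalCategory.whiskerLeft_comp_assoc, z1,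
      MonoidalCategory.whiskerLeft_comp_assoc, unit_fact, unit_sw]
    monoidal
  unfold assH
  rw [Preadditive.comp_sub, h1, h2, sub_self]

include z1 z2 in
theorem assH_one₂ : C ◁ (u ▷ C) ≫ assH m = 0 := by
  have h1 : C ◁ (u ▷ C) ≫ (α_ C C C).inv ≫ m ▷ C ≫ rC m = C ◁ (λ_ C).hom ≫ m := by
    rw [associator_inv_naturality_middle_assoc, ← comp_whiskerRight_assoc, z2,
      comp_whiskerRight_assoc, unit_rC]
    monoidal
  have h2 : C ◁ (u ▷ C) ≫ C ◁ m ≫ lC m = C ◁ (λ_ C).hom ≫ m := by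
    rw [← MonoidalCategory.whiskerLeft_comp_assoc, z1,
      MonoidalCategory.whiskerLeft_comp_assoc, unit_lC]
  unfold assH
  rw [Preadditive.comp_sub, h1, h2, sub_self]

include z2 in
theorem assH_one₃ : C ◁ (C ◁ u) ≫ assH m = 0 := by
  have h1 : C ◁ (C ◁ u) ≫ (α_ C C C).inv ≫ m ▷ C ≫ rC m = C ◁ (ρ_ C).hom ≫ m := by
    rw [associator_inv_naturality_right_assoc, whisker_exchange_assoc]
    unfold rC
    rw [associator_naturality_right_assoc, ← MonoidalCategory.whiskerLeft_comp_assoc A (C ◁ u) m,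
      z2, MonoidalCategory.whiskerLeft_comp_assoc, unit_fact]
    monoidal
  have h2 : C ◁ (C ◁ u) ≫ C ◁ m ≫ lC m = C ◁ (ρ_ C).hom ≫ m := by
    rw [← MonoidalCategory.whiskerLeft_comp_assoc, z2,
      MonoidalCategory.whiskerLeft_comp_assoc, unit_lC]
  unfold assH
  rw [Preadditive.comp_sub, h1, h2, sub_self]

end

namespace CData

variable {A R C Z S : T} [MonObj A] [MonObj R] (d : CData A R C Z S)
variable {𝒲 : T → Prop} (h : d.Van 𝒲)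
include h

theorem tri_zero [IsCommMonObj R] {M : T} (l : ModStr (A ⊗ R) M) (hv : d.v ▷ M ≫ rho l = 0)
    (H : C ⊗ (C ⊗ C) ⟶ M)
    (e1 : Eqv (kL d.act (C ⊗ C)) (rho l) H) (e2 : Eqv (kR C (kL d.act C)) (rho l) H)
    (e3 : Eqv (kR C (kR C d.act)) (rho l) H)
    (z1 : d.u1 ▷ (C ⊗ C) ≫ H = 0) (z2 : C ◁ (d.u1 ▷ C) ≫ H = 0)
    (z3 : C ◁ (C ◁ d.u1) ≫ H = 0)
    (h0 : ∀ g : (Z ⊗ S) ⊗ ((Z ⊗ S) ⊗ (Z ⊗ S)) ⟶ M, g = 0) : H = 0 := by
  obtain ⟨g1, g, hG, hg⟩ := d.bil h l hv H e1 e2 z1 z2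
  have z4 := (d.bil_zero h l hv hG hg d.u1).1 z3
  have e4 : Eqv (kR (Z ⊗ S) (kR (Z ⊗ S) d.act)) (rho l) g := by
    refine d.eqv_of_ext l hv g ?_
    rw [← hg]
    refine (eqv_sw₃ d.act C (Z ⊗ S)).comp (d.eqv_of_ext l hv g1 ?_)
    rwa [← hG]
  have e5 : Eqv (kL d.act ((Z ⊗ S) ⊗ (Z ⊗ S))) (rho l)
      ((β_ C ((Z ⊗ S) ⊗ (Z ⊗ S))).hom ≫ (α_ (Z ⊗ S) (Z ⊗ S) C).hom ≫ g) :=
    (eqv_braid₁ d.act _).comp ((eqv_assoc₃ d.act _ _).comp e4)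
  have z5 : d.u1 ▷ ((Z ⊗ S) ⊗ (Z ⊗ S)) ≫
      (β_ C ((Z ⊗ S) ⊗ (Z ⊗ S))).hom ≫ (α_ (Z ⊗ S) (Z ⊗ S) C).hom ≫ g = 0 := by
    rw [BraidedCategory.braiding_naturality_left_assoc, associator_naturality_right_assoc, z4,
      Limits.comp_zero, Limits.comp_zero]
  have k1 := d.eq_zero_of_lin l _ e5 z5 h0
  have k4 : g = 0 := by
    rwa [← cancel_epi (α_ (Z ⊗ S) (Z ⊗ S) C).hom,
      ← cancel_epi (β_ C ((Z ⊗ S) ⊗ (Z ⊗ S))).hom, Limits.comp_zero, Limits.comp_zero]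
  have k5 := (d.bil_zero h l hv hG hg (𝟙 C)).2 (by rw [k4, Limits.comp_zero])
  simpa using k5

/-- **existence of the twisted product** -/
theorem exists_twProd [IsCommMonObj R] {Q : T} (i : Q ⟶ A)
    (hi : (β_ Q A).hom ≫ A ◁ i ≫ μ[A] = i ▷ A ≫ μ[A]) (hN : NoDer 𝒲 i) :
    Nonempty (TwProd A d.act d.q) := by
  obtain ⟨m, e1, e2, z1, z2⟩ := d.exists_m h
  have hc := d.comA_eq_zero h i hi hN m e1 e2 z1 z2
  have ha : assH m = 0 := by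
    refine d.tri_zero h d.lE (d.hv h) _ ?_ ?_ ?_ (assH_one₁ m _ z1) (assH_one₂ m _ z1 z2)
      (assH_one₃ m _ z2) (h.h3 _ h.hW)
    · rw [rho_lE]
      exact eqv_assH₁ m e1
    · rw [rho_lE]
      exact eqv_assH₂ m e1 e2
    · rw [rho_lE]
      exact eqv_assH₃ m e2
  refine ⟨⟨m, ?_, ?_, z1, z2, ?_, ?_⟩⟩
  · unfold Eqv kL at e1
    rw [Category.assoc, Iso.inv_comp_eq, ← actR_eq] at e1
    exact e1
  · rw [← tr_iff_eqv] at e2
    unfold Tr at e2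
    rw [MonoidalCategory.whiskerLeft_id, Category.id_comp, ← actR_eq] at e2
    unfold sw at e2
    simpa only [Category.assoc] using e2
  · unfold comA at hc
    rw [sub_eq_zero] at hc
    rw [hc, SymmetricCategory.symmetry_assoc]
  · unfold assH rC lC sw at ha
    rw [sub_eq_zero, Iso.inv_comp_eq] at ha
    simpa only [Category.assoc] using ha

end CData

/-- **existence of the twisted product** -/
theorem exists_twProd {A R C Z S : T} [MonObj A] [MonObj R] [IsCommMonObj R]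
    (d : CData A R C Z S) {𝒲 : T → Prop} (h : d.Van 𝒲) {Q : T} (i : Q ⟶ A)
    (hi : (β_ Q A).hom ≫ A ◁ i ≫ μ[A] = i ▷ A ≫ μ[A]) (hN : NoDer 𝒲 i) :
    Nonempty (TwProd A d.act d.q) := d.exists_twProd h i hi hN

end Vale.Agent.P241.EX
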