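import Vale.Agent.P241.EX.Top
import Vale.Agent.P241.H618.Exists

/-!
# P241, EX: existence of the Morava `K`-theories at every prime

`exists_moravaK` : for every prime `p` (also `p = 2`) there are ring objects `K i`, `i : ℕ`, which
are models of the Morava `K`-theories `K(i)` at `p` (`IsMoravaK`).
-/

open CategoryTheory MonoidalCategory

namespace Vale.Agent.P241.EX

open Vale.Agent.P241.H795 Vale.Agent.P241.St Vale.Agent.P241.Final
open Vale.Agent.P251 Vale.Agent.P251.St Vale.Agent.P251.I Vale.Agent.P251.T Vale.Agent.P251.F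
  Vale.Agent.P251.M Vale.Agent.P251.X

variable {T : P251.St.SHCat}

/-- **Existence of the Morava `K`-theories** at every prime. -/
theorem exists_moravaK (S : P251.St.Susp T) (p : ℕ) [Fact p.Prime] :
    ∃ K : ℕ → RingA T, ∀ i, IsMoravaK S p i (K i) := by
  obtain ⟨X⟩ := Ctx.nonempty S
  exact exists_moravaK_of_AD X p fun k => exists_AD X.muUniv X.muAll p k

end Vale.Agent.P241.EX

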