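import Vale.Agent.P241.EX.Trans
import Vale.Agent.P241.H24.ActMod
import Vale.Agent.P241.H24.Tw

/-!
# P241, block EX: the module `A ⊗ C`

`d.lE : ModStr (A ⊗ R) (A ⊗ C)`, the actions of `R`, `A`, the right action of `A`.
-/

open CategoryTheory MonoidalCategory MonObj

set_option linter.unusedSectionVars false

universe v u

namespace Vale.Agent.P241.EX

open Vale.Agent.P251.M Vale.Agent.P251.S Vale.Agent.P251.X

variable {T : Type u} [Category.{v} T] [Preadditive T] [MonoidalCategory T]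
  [MonoidalPreadditive T] [SymmetricCategory T]

section modE

variable {A R C : T} [MonObj A] [MonObj R] (act : R ⊗ C ⟶ C)
  (h1 : A ◁ (η[R] ▷ C ≫ act) = A ◁ (λ_ C).hom)
  (h2 : A ◁ (μ[R] ▷ C ≫ act) = A ◁ ((α_ R R C).hom ≫ R ◁ act ≫ act))

theorem actR_eq : actR A act = kR A act := by
  unfold actR kR sw
  simp only [Category.assoc]

theorem rho_modE : rho (H24.modE act h1 h2) = kR A act := by
  change ((λ_ R).inv ≫ η[A] ▷ R) ▷ (A ⊗ C) ≫ tensorμ A R A C ≫ (μ[A] ⊗ₘ act) = _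
  rw [comp_whiskerRight, Category.assoc, ← tensorHom_id η[A] R, tensorμ_natural_left_assoc,
    tensorHom_comp_tensorHom, id_whiskerRight, Category.id_comp, MonObj.one_mul]
  unfold kR sw tensorμ
  monoidal

theorem lam_modE : lam (H24.modE act h1 h2) = fact A C := by
  change ((ρ_ A).inv ≫ A ◁ η[R]) ▷ (A ⊗ C) ≫ tensorμ A R A C ≫ (μ[A] ⊗ₘ act) = _
  rw [comp_whiskerRight, Category.assoc, ← id_tensorHom A η[R], tensorμ_natural_left_assoc,
    tensorHom_comp_tensorHom, id_whiskerRight, Category.id_comp, tensorHom_def, h1]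
  unfold fact tensorμ
  rw [braiding_tensorUnit_left]
  monoidal

end modE

section right

variable {A R C : T} [MonObj A] [MonObj R]

theorem actr_eq (A C : T) [MonObj A] : actr A C = H24.rmul A C := rfl

theorem eqv_actr (κ : R ⊗ C ⟶ C) : Eqv (kL (kR A κ) A) (kR A κ) (actr A C) :=
  (eqv_assoc₂ κ A A).comp (((eqv_braid₁ κ A).whiskerLeft A).comp
    ((eqv_assoc₃ κ A A).inv.comp (eqv_kR κ μ[A])))

theorem unit_actr : FM.unit A C ▷ A ≫ actr A C = (β_ C A).hom := by
  unfold FM.unit actr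
  rw [comp_whiskerRight, Category.assoc, associator_naturality_left_assoc,
    ← whisker_exchange_assoc, associator_inv_naturality_left_assoc, ← comp_whiskerRight,
    MonObj.one_mul]
  monoidal

theorem unit_fact (A X : T) [MonObj A] : A ◁ FM.unit A X ≫ fact A X = 𝟙 _ :=
  FM.bind_unit (R := A) X

theorem central_actr {Q : T} (i : Q ⟶ A) (hi : (β_ Q A).hom ≫ A ◁ i ≫ μ[A] = i ▷ A ≫ μ[A]) :
    (A ⊗ C) ◁ i ≫ actr A C = (β_ (A ⊗ C) Q).hom ≫ i ▷ (A ⊗ C) ≫ fact A C := by
  have h1 : A ◁ i ≫ μ[A] = (β_ A Q).hom ≫ i ▷ A ≫ μ[A] := by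
    rw [← hi, SymmetricCategory.symmetry_assoc]
  unfold actr fact
  rw [associator_naturality_right_assoc, ← MonoidalCategory.whiskerLeft_comp_assoc,
    BraidedCategory.braiding_naturality_right, MonoidalCategory.whiskerLeft_comp_assoc,
    associator_inv_naturality_middle_assoc, ← comp_whiskerRight, h1, comp_whiskerRight,
    comp_whiskerRight, BraidedCategory.braiding_tensor_left_hom]
  simp only [Category.assoc]
  rw [associator_inv_naturality_left_assoc, Iso.hom_inv_id_assoc]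

end right

namespace CData

variable {A R C Z S : T} [MonObj A] [MonObj R] (d : CData A R C Z S)

theorem one_act : A ◁ (η[R] ▷ C ≫ d.act) = A ◁ (λ_ C).hom := by
  have h := H24.whiskerLeft_ext (A := A) (f := (λ_ C).inv ≫ η[R] ▷ C ≫ d.act) (g := 𝟙 C)
    (by rw [d.one', Category.id_comp])
  have h2 : η[R] ▷ C ≫ d.act = (λ_ C).hom ≫ (λ_ C).inv ≫ η[R] ▷ C ≫ d.act := by
    rw [Iso.hom_inv_id_assoc]
  rw [h2, MonoidalCategory.whiskerLeft_comp, h]
  simp

theorem mul_act : A ◁ (μ[R] ▷ C ≫ d.act) = A ◁ ((α_ R R C).hom ≫ R ◁ d.act ≫ d.act) :=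
  H24.whiskerLeft_ext (A := A) d.mul'

/-- the module `A ⊗ C` over `A ⊗ R` -/
def lE : ModStr (A ⊗ R) (A ⊗ C) := H24.modE d.act d.one_act d.mul_act

theorem rho_lE : rho d.lE = kR A d.act := rho_modE _ _ _

theorem lam_lE : lam d.lE = fact A C := lam_modE _ _ _

theorem hv {𝒲 : T → Prop} (h : d.Van 𝒲) : d.v ▷ (A ⊗ C) ≫ rho d.lE = 0 := by
  have h1 : A ◁ (d.v ▷ C ≫ d.act) = A ◁ (0 : Z ⊗ C ⟶ C) :=
    H24.whiskerLeft_ext (A := A) (by rw [h.vC', Limits.zero_comp])
  rw [rho_lE]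
  unfold kR
  rw [sw_nat₁_assoc, ← MonoidalCategory.whiskerLeft_comp, h1,
    MonoidalPreadditive.whiskerLeft_zero, Limits.comp_zero]

end CData

end Vale.Agent.P241.EX
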