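import Vale.Agent.P241.EX.StepC

/-!
# P241, block EX: parity

The vanishing hypotheses for `A ⊗ C` from `Odd0 (A ⊗ C)`.
-/

open CategoryTheory MonoidalCategory Limits Pretriangulated MonObj

set_option linter.unusedSectionVars false

universe v u

namespace Vale.Agent.P241.EX

open Vale.Agent.P251.T Vale.Agent.P251.M Vale.Agent.P251.M.EvenSpheres Vale.Agent.P251.S
  Vale.Agent.P251.F Vale.Agent.P251.I Vale.Agent.P251.X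

variable {T : Type u} [Category.{v} T] [Preadditive T] [HasZeroObject T]
    [HasShift T ℤ] [∀ n : ℤ, (shiftFunctor T n).Additive] [Pretriangulated T] [IsTriangulated T]
    [MonoidalCategory T] [SymmetricCategory T] [TensorTriangulated T] [MonoidalClosed T]
    [HasCoproducts.{0} T] [HasProducts.{0} T] [StableCat T]

/-- the odd spheres -/
def OddS (W : T) : Prop := ∃ k : ℤ, Nonempty (W ≅ (stdEven T).S k ⊗ (𝟙_ T)⟦(1 : ℤ)⟧)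

theorem oddS_self (k : ℤ) : OddS ((stdEven T).S k ⊗ (𝟙_ T)⟦(1 : ℤ)⟧) := ⟨k, ⟨Iso.refl _⟩⟩

theorem OddS.h3 {W N : T} (hW : OddS W) (h : Odd0 N) (d : ℤ)
    (f : W ⊗ (((stdEven T).S d ⊗ (𝟙_ T)⟦(1 : ℤ)⟧) ⊗
      ((stdEven T).S d ⊗ (𝟙_ T)⟦(1 : ℤ)⟧)) ⟶ N) : f = 0 := by
  obtain ⟨k, ⟨i⟩⟩ := hW
  apply NoMap.eq_zero (E := stdEven T)
  refine NoMap.of_iso (whiskerRightIso i.symm _) ?_
  apply NoMap.assoc
  apply NoMap.sphere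
  refine NoMap.of_iso (whiskerLeftIso _ ((α_ _ _ _).symm)) ?_
  refine NoMap.of_iso (Y := (stdEven T).S d ⊗ ((𝟙_ T)⟦(1 : ℤ)⟧ ⊗ ((𝟙_ T)⟦(1 : ℤ)⟧ ⊗
    ((stdEven T).S d ⊗ (𝟙_ T)⟦(1 : ℤ)⟧)))) ?_ ?_
  · exact (α_ _ _ _).symm ≪≫ whiskerRightIso (β_ _ _) _ ≪≫ α_ _ _ _
  · exact (h.noMap.sphere d).two.sphere d

variable {D : MUData T} {F : SpaceFunctor T} {e : F.S.obj CCF ≅ (stdEven T).L}

/-- maps out of `((R ⊗ R) ⊗ (R ⊗ S^{2d}))⟦1⟧` -/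
theorem V3_of_odd (H : MUUniv e D) {N : T} (M : ModStr D.R N) (h : Odd0 N) (d : ℤ)
    (f : ((D.R ⊗ D.R) ⊗ (D.R ⊗ (stdEven T).S d))⟦(1 : ℤ)⟧ ⟶ N) : f = 0 := by
  have h1 : NoMap (stdEven T)
      (D.R ⊗ (D.R ⊗ (D.R ⊗ ((stdEven T).S d ⊗ (𝟙_ T)⟦(1 : ℤ)⟧)))) N :=
    (((h.noMap.sphere d).R_left H M).R_left H M).R_left H M
  refine (h1.of_iso ((α_ D.R D.R _).symm ≪≫ whiskerLeftIso _ (α_ _ _ _).symm ≪≫
    (α_ _ _ _).symm ≪≫ TensorTriangulated.e _)).eq_zero f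

/-- maps out of `(S^{2d} ⊗ (R ⊗ S^{2d}))⟦1⟧` -/
theorem VZ_of_odd (H : MUUniv e D) {N : T} (M : ModStr D.R N) (h : Odd0 N) (d : ℤ)
    (f : ((stdEven T).S d ⊗ (D.R ⊗ (stdEven T).S d))⟦(1 : ℤ)⟧ ⟶ N) : f = 0 := by
  have h1 : NoMap (stdEven T)
      ((stdEven T).S d ⊗ (D.R ⊗ ((stdEven T).S d ⊗ (𝟙_ T)⟦(1 : ℤ)⟧))) N :=
    ((h.noMap.sphere d).R_left H M).sphere d
  refine (h1.of_iso (whiskerLeftIso _ (α_ _ _ _).symm ≪≫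
    (α_ _ _ _).symm ≪≫ TensorTriangulated.e _)).eq_zero f

end Vale.Agent.P241.EX
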