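import Vale.Agent.P241.EX.ModC

/-!
# P241, block EX: the bilinear product `C ⊗ C ⟶ A ⊗ C`
-/

open CategoryTheory MonoidalCategory MonObj

set_option linter.unusedSectionVars false

universe v u

namespace Vale.Agent.P241.EX

open Vale.Agent.P251.M Vale.Agent.P251.S Vale.Agent.P251.X

variable {T : Type u} [Category.{v} T] [Preadditive T] [MonoidalCategory T]
  [MonoidalPreadditive T] [SymmetricCategory T]

theorem Eqv.sub {R K K' : T} {κ : R ⊗ K ⟶ K} {κ' : R ⊗ K' ⟶ K'} {f g : K ⟶ K'}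
    (hf : Eqv κ κ' f) (hg : Eqv κ κ' g) : Eqv κ κ' (f - g) := by
  unfold Eqv at *
  have h : R ◁ (f - g) = R ◁ f - R ◁ g := (tensorLeft R).map_sub
  rw [h, Preadditive.comp_sub, Preadditive.sub_comp, hf, hg]

theorem eqv_rightUnitor {R K : T} (κ : R ⊗ K ⟶ K) : Eqv (kL κ (𝟙_ T)) κ (ρ_ K).hom := by
  unfold Eqv kL
  monoidal

theorem sw_unit (X Y : T) : sw X (𝟙_ T) Y = X ◁ (λ_ Y).hom ≫ (λ_ (X ⊗ Y)).inv := by
  unfold sw
  rw [braiding_tensorUnit_right]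
  monoidal

theorem unit_sw (X Y : T) : sw (𝟙_ T) X Y = (λ_ (X ⊗ Y)).hom ≫ X ◁ (λ_ Y).inv := by
  unfold sw
  rw [braiding_tensorUnit_left]
  monoidal

/-- `x ⊗ (1 ⊗ y) ↦ 1 ⊗ (x ⊗ y)` -/
@[reassoc]
theorem unit_sw_unit (A X Y : T) [MonObj A] :
    X ◁ FM.unit A Y ≫ sw X A Y = FM.unit A (X ⊗ Y) := by
  unfold FM.unit
  rw [MonoidalCategory.whiskerLeft_comp, Category.assoc, sw_nat₂, sw_unit]
  monoidal

theorem eqv_unit {R K : T} (κ : R ⊗ K ⟶ K) (A : T) [MonObj A] :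
    Eqv κ (kR A κ) (FM.unit A K) := by
  unfold Eqv kR
  rw [unit_sw_unit_assoc, FM.unit_naturality]

namespace CData

variable {A R C Z S : T} [MonObj A] [MonObj R] (d : CData A R C Z S)

/-- the unit of `C` -/
def u1 : 𝟙_ T ⟶ C := η[R] ≫ d.q

theorem eq_zero_of_lin {M X : T} (l : ModStr (A ⊗ R) M) (f : C ⊗ X ⟶ M)
    (hf : Eqv (kL d.act X) (rho l) f) (h1 : d.u1 ▷ X ≫ f = 0)
    (h0 : ∀ g : (Z ⊗ S) ⊗ X ⟶ M, g = 0) : f = 0 := by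
  obtain ⟨g, hg⟩ := d.fac l f ((d.lin_iff_eqv l f).2 hf) h1
  rw [hg, h0 g, ext_zero]

variable {𝒲 : T → Prop} (h : d.Van 𝒲)
include h

theorem exists_m1 : ∃ m1 : C ⊗ C ⟶ A ⊗ C, Eqv (kL d.act C) (kR A d.act) m1 ∧
    d.u1 ▷ C ≫ m1 = (λ_ C).hom ≫ FM.unit A C ∧ C ◁ d.u1 ≫ m1 = (ρ_ C).hom ≫ FM.unit A C := by
  obtain ⟨m1, hl, h1⟩ := d.exists_lin d.lE (d.hv h) (FM.unit A C)
  have hl' := (d.lin_iff_eqv _ _).1 hl
  rw [rho_lE] at hl'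
  refine ⟨m1, hl', h1, ?_⟩
  have e1 : Eqv (kL d.act (𝟙_ T)) (kR A d.act) (C ◁ d.u1 ≫ m1) := (eqv_kL d.act d.u1).comp hl'
  have e2 : Eqv (kL d.act (𝟙_ T)) (kR A d.act) ((ρ_ C).hom ≫ FM.unit A C) :=
    (eqv_rightUnitor d.act).comp (eqv_unit d.act A)
  have e3 := e1.sub e2
  rw [← rho_lE] at e3
  have e4 : d.u1 ▷ (𝟙_ T) ≫ (C ◁ d.u1 ≫ m1 - (ρ_ C).hom ≫ FM.unit A C) = 0 := by
    change d.u1 ▷ C ≫ m1 = _ at h1
    rw [Preadditive.comp_sub, ← whisker_exchange_assoc, h1]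
    simp [← unitors_equal]
  refine sub_eq_zero.1 (d.eq_zero_of_lin d.lE _ e3 e4 fun g ↦ ?_)
  have h5 := h.h1 ((ρ_ _).inv ≫ g)
  rw [← cancel_epi (ρ_ (Z ⊗ S)).inv, h5, Limits.comp_zero]

theorem exists_m [IsCommMonObj R] : ∃ m : C ⊗ C ⟶ A ⊗ C, Eqv (kL d.act C) (kR A d.act) m ∧
    Eqv (kR C d.act) (kR A d.act) m ∧
    d.u1 ▷ C ≫ m = (λ_ C).hom ≫ FM.unit A C ∧ C ◁ d.u1 ≫ m = (ρ_ C).hom ≫ FM.unit A C := by
  obtain ⟨m1, hl, h1, h2⟩ := d.exists_m1 h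
  have e1 : Eqv (kR C d.act) (rho d.lE) ((β_ C C).hom ≫ m1) := by
    rw [rho_lE]
    exact (eqv_braid₂ d.act C).comp hl
  have e2 := d.avg_eqv d.lE _ e1
  have e3 := (d.lin_iff_eqv _ _).1 (d.avg_lin d.lE ((β_ C C).hom ≫ m1))
  rw [rho_lE] at e2 e3
  refine ⟨(β_ C C).hom ≫ d.avg d.lE ((β_ C C).hom ≫ m1), (eqv_braid₁ d.act C).comp e2,
    (eqv_braid₂ d.act C).comp e3, ?_, ?_⟩
  · have e4 : C ◁ d.u1 ≫ (β_ C C).hom ≫ m1 = (ρ_ C).hom ≫ FM.unit A C := by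
      rw [BraidedCategory.braiding_naturality_right_assoc, h1, braiding_tensorUnit_right]
      simp
    rw [BraidedCategory.braiding_naturality_left_assoc, avg_nat, e4, avg_of_lin,
      braiding_tensorUnit_left]
    · simp
    · rw [lin_iff_eqv, rho_lE]
      exact (eqv_rightUnitor d.act).comp (eqv_unit d.act A)
  · have e5 : d.u1 ▷ C ≫ d.avg d.lE ((β_ C C).hom ≫ m1) = d.u1 ▷ C ≫ (β_ C C).hom ≫ m1 :=
      d.one_avg d.lE _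
    rw [BraidedCategory.braiding_naturality_right_assoc, e5,
      BraidedCategory.braiding_naturality_left_assoc, SymmetricCategory.symmetry_assoc, h2]

end CData

end Vale.Agent.P241.EX
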