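import Vale.Agent.P251.X.StepOdd

/-!
# P241, block EX: the action of `MU` on `A ⊗ (MU/v)`, for a non-commutative `A`

Parity is available only for the targets `A ⊗ C`, `(A ⊗ R) ⊗ C`. The plain map `d.a : R ⊗ C ⟶ C` is
unital and associative after composition with the unit `C ⟶ A ⊗ C`, and so is `v = 0` on `C`.
-/

open CategoryTheory MonoidalCategory Limits Pretriangulated MonObj

set_option linter.unusedSectionVars false

universe v u

namespace Vale.Agent.P241.EX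

open Vale.Agent.P251.T Vale.Agent.P251.M Vale.Agent.P251.S Vale.Agent.P251.X

variable {T : Type u} [Category.{v} T] [Preadditive T] [HasZeroObject T] [HasShift T ℤ]
  [∀ n : ℤ, (shiftFunctor T n).Additive] [Pretriangulated T]
  [MonoidalCategory T] [SymmetricCategory T] [TensorTriangulated T]

variable {P R Z C : T} [MonObj P] [MonObj R] (d : StepD P R Z C)

theorem dist_extW (W : T) {Y : T} (hY : ∀ f : (W ⊗ (R ⊗ Z))⟦(1 : ℤ)⟧ ⟶ Y, f = 0)
    (f g : W ⊗ C ⟶ Y) (h : W ◁ d.q ≫ f = W ◁ d.q ≫ g) : f = g := by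
  have h1 : W ◁ d.q ≫ (f - g) = 0 := by rw [Preadditive.comp_sub, h, sub_self]
  obtain ⟨b, hb⟩ := Triangle.yoneda_exact₃ _ (tens_dist W d.dist) (f - g) h1
  have h2 : f - g = 0 := by
    rw [hb]
    change tensδ W d.δ ≫ b = 0
    rw [hY b, comp_zero]
  exact sub_eq_zero.1 h2

variable [IsCommMonObj R]

theorem one_a : ((λ_ C).inv ≫ η[R] ▷ C ≫ d.a) ≫ FM.unit P C = FM.unit P C := by
  apply d.dist_ext d.V1
  have h1 : d.q ≫ (λ_ C).inv ≫ η[R] ▷ C ≫ d.a = d.q := by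
    rw [leftUnitor_inv_naturality_assoc, whisker_exchange_assoc, d.q_a, MonObj.one_mul_assoc,
      Iso.inv_hom_id_assoc]
  rw [← Category.assoc, h1]

theorem mul_a (V3 : ∀ f : ((R ⊗ R) ⊗ (R ⊗ Z))⟦(1 : ℤ)⟧ ⟶ P ⊗ C, f = 0) :
    (μ[R] ▷ C ≫ d.a) ≫ FM.unit P C = ((α_ R R C).hom ≫ R ◁ d.a ≫ d.a) ≫ FM.unit P C := by
  apply dist_extW d (R ⊗ R) V3
  have h1 : (R ⊗ R) ◁ d.q ≫ μ[R] ▷ C ≫ d.a = (R ⊗ R) ◁ d.q ≫ (α_ R R C).hom ≫ R ◁ d.a ≫ d.a := by
    rw [whisker_exchange_assoc, d.q_a, associator_naturality_right_assoc,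
      ← MonoidalCategory.whiskerLeft_comp_assoc, d.q_a, MonoidalCategory.whiskerLeft_comp_assoc,
      d.q_a, MonObj.mul_assoc_assoc]
  rw [← Category.assoc, h1]
  simp only [Category.assoc]

theorem v_a (VZ : ∀ f : (Z ⊗ (R ⊗ Z))⟦(1 : ℤ)⟧ ⟶ P ⊗ C, f = 0) :
    (d.v ▷ C ≫ d.a) ≫ FM.unit P C = 0 := by
  apply dist_extW d Z VZ
  have h0 : (R ◁ d.v ≫ μ[R]) ≫ d.q = 0 := comp_distTriang_mor_zero₁₂ _ d.dist
  have h1 : Z ◁ d.q ≫ d.v ▷ C ≫ d.a = 0 := by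
    rw [whisker_exchange_assoc, d.q_a]
    have h2 : d.v ▷ R ≫ μ[R] = (β_ Z R).hom ≫ R ◁ d.v ≫ μ[R] := by
      rw [← BraidedCategory.braiding_naturality_left_assoc, IsCommMonObj.mul_comm]
    rw [reassoc_of% h2, ← Category.assoc (R ◁ d.v), h0, comp_zero]
  rw [← Category.assoc, h1, zero_comp, comp_zero]

end Vale.Agent.P241.EX
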