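import Vale.Agent.P251.X.RetMod

/-!
# P241, block EX: exchange of factors, equivariant maps

* `sw X B Y : X ⊗ (B ⊗ Y) ⟶ B ⊗ (X ⊗ Y)`.
* `kL κ X`, `kR X κ` : the actions on `K ⊗ X`, `X ⊗ K` given by `κ : R ⊗ K ⟶ K`.
* `Eqv κ κ' f` : `f : K ⟶ K'` commutes with the actions.
-/

open CategoryTheory MonoidalCategory MonObj

set_option linter.unusedSectionVars false

universe v u

namespace Vale.Agent.P241.EX

open Vale.Agent.P251.M Vale.Agent.P251.S Vale.Agent.P251.X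

variable {T : Type u} [Category.{v} T] [MonoidalCategory T] [SymmetricCategory T]

section sw

/-- exchange of the first two factors -/
def sw (X B Y : T) : X ⊗ (B ⊗ Y) ⟶ B ⊗ (X ⊗ Y) :=
  (α_ X B Y).inv ≫ (β_ X B).hom ▷ Y ≫ (α_ B X Y).hom

@[reassoc]
theorem sw_nat₁ {X X' : T} (f : X ⟶ X') (B Y : T) :
    f ▷ (B ⊗ Y) ≫ sw X' B Y = sw X B Y ≫ B ◁ (f ▷ Y) := by
  unfold sw
  rw [associator_inv_naturality_left_assoc, ← comp_whiskerRight_assoc,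
    BraidedCategory.braiding_naturality_left, comp_whiskerRight_assoc,
    associator_naturality_middle]
  simp only [Category.assoc]

@[reassoc]
theorem sw_nat₂ (X : T) {B B' : T} (b : B ⟶ B') (Y : T) :
    X ◁ (b ▷ Y) ≫ sw X B' Y = sw X B Y ≫ b ▷ (X ⊗ Y) := by
  unfold sw
  rw [associator_inv_naturality_middle_assoc, ← comp_whiskerRight_assoc,
    BraidedCategory.braiding_naturality_right, comp_whiskerRight_assoc,
    associator_naturality_left]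
  simp only [Category.assoc]

@[reassoc]
theorem sw_nat₃ (X B : T) {Y Y' : T} (y : Y ⟶ Y') :
    X ◁ (B ◁ y) ≫ sw X B Y' = sw X B Y ≫ B ◁ (X ◁ y) := by
  unfold sw
  rw [associator_inv_naturality_right_assoc, whisker_exchange_assoc,
    associator_naturality_right]
  simp only [Category.assoc]

@[reassoc (attr := simp)]
theorem sw_sw (X B Y : T) : sw X B Y ≫ sw B X Y = 𝟙 _ := by
  unfold sw
  simp only [Category.assoc, Iso.hom_inv_id_assoc]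
  rw [← comp_whiskerRight_assoc, SymmetricCategory.symmetry]
  simp

@[reassoc]
theorem sw_tensor₁ (X X' B Y : T) :
    (α_ X X' (B ⊗ Y)).hom ≫ X ◁ sw X' B Y ≫ sw X B (X' ⊗ Y) =
      sw (X ⊗ X') B Y ≫ B ◁ (α_ X X' Y).hom := by
  unfold sw
  rw [BraidedCategory.braiding_tensor_left_hom]
  monoidal

@[reassoc]
theorem sw_tensor₂ (X B B' Y : T) :
    X ◁ (α_ B B' Y).hom ≫ sw X B (B' ⊗ Y) ≫ B ◁ sw X B' Y =
      sw X (B ⊗ B') Y ≫ (α_ B B' (X ⊗ Y)).hom := by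
  unfold sw
  rw [BraidedCategory.braiding_tensor_right_hom]
  monoidal

@[reassoc]
theorem sw_yb (X Y B K : T) :
    X ◁ sw Y B K ≫ sw X B (Y ⊗ K) ≫ B ◁ sw X Y K =
      sw X Y (B ⊗ K) ≫ Y ◁ sw X B K ≫ sw Y B (X ⊗ K) := by
  have h1 : sw X B (Y ⊗ K) ≫ B ◁ sw X Y K =
      X ◁ (α_ B Y K).inv ≫ sw X (B ⊗ Y) K ≫ (α_ B Y (X ⊗ K)).hom := by
    rw [← sw_tensor₂, ← MonoidalCategory.whiskerLeft_comp_assoc, Iso.inv_hom_id]
    simp
  have h2 : sw X Y (B ⊗ K) ≫ Y ◁ sw X B K =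
      X ◁ (α_ Y B K).inv ≫ sw X (Y ⊗ B) K ≫ (α_ Y B (X ⊗ K)).hom := by
    rw [← sw_tensor₂, ← MonoidalCategory.whiskerLeft_comp_assoc, Iso.inv_hom_id]
    simp
  rw [h1, reassoc_of% h2]
  have h3 : X ◁ sw Y B K =
      X ◁ (α_ Y B K).inv ≫ X ◁ ((β_ Y B).hom ▷ K) ≫ X ◁ (α_ B Y K).hom := by
    unfold sw
    simp only [MonoidalCategory.whiskerLeft_comp]
  rw [h3]
  simp only [Category.assoc]
  rw [← MonoidalCategory.whiskerLeft_comp_assoc X (α_ B Y K).hom, Iso.hom_inv_id]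
  simp only [MonoidalCategory.whiskerLeft_id, Category.id_comp]
  rw [sw_nat₂_assoc]
  have h4 : (α_ Y B (X ⊗ K)).hom ≫ sw Y B (X ⊗ K) =
      (β_ Y B).hom ▷ (X ⊗ K) ≫ (α_ B Y (X ⊗ K)).hom := by
    unfold sw
    simp only [Iso.hom_inv_id_assoc]
  rw [h4]

/-- `x ⊗ (v ⊗ a) ↦ v ⊗ (x ⊗ a)` and the braiding with `V ⊗ A` -/
@[reassoc]
theorem braid_sw (V A X : T) :
    (β_ (V ⊗ A) X).hom ≫ sw X V A = (α_ V A X).hom ≫ V ◁ (β_ A X).hom := by
  rw [BraidedCategory.braiding_tensor_left_hom]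
  unfold sw
  simp only [Category.assoc, Iso.hom_inv_id_assoc]
  rw [← comp_whiskerRight_assoc, SymmetricCategory.symmetry]
  simp

@[reassoc]
theorem braid_right_sw (P V A : T) :
    (β_ P (V ⊗ A)).hom = sw P V A ≫ V ◁ (β_ P A).hom ≫ (α_ V A P).inv := by
  rw [BraidedCategory.braiding_tensor_right_hom]
  unfold sw
  simp only [Category.assoc]

end sw

section eqv

variable {R K K' K'' : T}

/-- the action on `K ⊗ X` -/
def kL (κ : R ⊗ K ⟶ K) (X : T) : R ⊗ (K ⊗ X) ⟶ K ⊗ X := (α_ R K X).inv ≫ κ ▷ X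

/-- the action on `X ⊗ K` -/
def kR (X : T) (κ : R ⊗ K ⟶ K) : R ⊗ (X ⊗ K) ⟶ X ⊗ K := sw R X K ≫ X ◁ κ

/-- `f` commutes with the actions -/
def Eqv (κ : R ⊗ K ⟶ K) (κ' : R ⊗ K' ⟶ K') (f : K ⟶ K') : Prop := κ ≫ f = R ◁ f ≫ κ'

variable {κ : R ⊗ K ⟶ K} {κ' : R ⊗ K' ⟶ K'} {κ'' : R ⊗ K'' ⟶ K''}

theorem Eqv.comp {f : K ⟶ K'} {g : K' ⟶ K''} (hf : Eqv κ κ' f) (hg : Eqv κ' κ'' g) :
    Eqv κ κ'' (f ≫ g) := by
  unfold Eqv at *
  rw [reassoc_of% hf, hg, MonoidalCategory.whiskerLeft_comp_assoc]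

theorem Eqv.id : Eqv κ κ (𝟙 K) := by
  unfold Eqv
  simp

theorem Eqv.inv {f : K ≅ K'} (hf : Eqv κ κ' f.hom) : Eqv κ' κ f.inv := by
  unfold Eqv at *
  have h : R ◁ f.inv ≫ κ ≫ f.hom = κ' := by
    rw [hf, ← MonoidalCategory.whiskerLeft_comp_assoc, Iso.inv_hom_id]
    simp
  rw [← h]
  simp

theorem Eqv.whiskerRight {f : K ⟶ K'} (hf : Eqv κ κ' f) (X : T) :
    Eqv (kL κ X) (kL κ' X) (f ▷ X) := by
  unfold Eqv kL at *
  rw [Category.assoc, ← comp_whiskerRight, hf, comp_whiskerRight,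
    associator_inv_naturality_middle_assoc]

theorem Eqv.whiskerLeft {f : K ⟶ K'} (hf : Eqv κ κ' f) (X : T) :
    Eqv (kR X κ) (kR X κ') (X ◁ f) := by
  unfold Eqv kR at *
  rw [Category.assoc, ← MonoidalCategory.whiskerLeft_comp, hf,
    MonoidalCategory.whiskerLeft_comp, sw_nat₃_assoc]

variable (κ)

theorem eqv_kR {X X' : T} (f : X ⟶ X') : Eqv (kR X κ) (kR X' κ) (f ▷ K) := by
  unfold Eqv kR
  rw [Category.assoc, whisker_exchange, sw_nat₂_assoc]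

theorem eqv_kL {X X' : T} (f : X ⟶ X') : Eqv (kL κ X) (kL κ X') (K ◁ f) := by
  unfold Eqv kL
  rw [Category.assoc, ← whisker_exchange, associator_inv_naturality_right_assoc]

theorem eqv_assoc₁ (X Y : T) : Eqv (kL (kL κ X) Y) (kL κ (X ⊗ Y)) (α_ K X Y).hom := by
  unfold Eqv kL
  monoidal

theorem eqv_assoc₂ (X Y : T) : Eqv (kL (kR X κ) Y) (kR X (kL κ Y)) (α_ X K Y).hom := by
  unfold Eqv kL kR sw
  monoidal

theorem eqv_assoc₃ (X Y : T) : Eqv (kR (X ⊗ Y) κ) (kR X (kR Y κ)) (α_ X Y K).hom := by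
  unfold Eqv kR
  rw [MonoidalCategory.whiskerLeft_comp, sw_tensor₂_assoc, Category.assoc,
    associator_naturality_right]

theorem eqv_braid₁ (X : T) : Eqv (kL κ X) (kR X κ) (β_ K X).hom := by
  unfold Eqv kL kR sw
  rw [Category.assoc, BraidedCategory.braiding_naturality_left,
    BraidedCategory.braiding_tensor_left_hom]
  simp only [Category.assoc, Iso.inv_hom_id_assoc]

theorem eqv_braid₂ (X : T) : Eqv (kR X κ) (kL κ X) (β_ X K).hom := by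
  have h := (eqv_braid₁ κ X).inv
  rwa [show (β_ K X).inv = (β_ X K).hom from (SymmetricCategory.braiding_swap_eq_inv_braiding K X).symm] at h

theorem eqv_sw₁ (X Y : T) : Eqv (kL κ (X ⊗ Y)) (kR X (kL κ Y)) (sw K X Y) :=
  (eqv_assoc₁ κ X Y).inv.comp (((eqv_braid₁ κ X).whiskerRight Y).comp (eqv_assoc₂ κ X Y))

theorem eqv_sw₂ (X Y : T) : Eqv (kR X (kL κ Y)) (kL κ (X ⊗ Y)) (sw X K Y) :=
  (eqv_assoc₂ κ X Y).inv.comp (((eqv_braid₂ κ X).whiskerRight Y).comp (eqv_assoc₁ κ X Y))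

theorem eqv_sw₃ (X Y : T) : Eqv (kR X (kR Y κ)) (kR Y (kR X κ)) (sw X Y K) :=
  (eqv_assoc₃ κ X Y).inv.comp ((eqv_kR κ (β_ X Y).hom).comp (eqv_assoc₃ κ Y X))

theorem eqv_fact (A : T) [MonObj A] : Eqv (kR A (kR A κ)) (kR A κ) (fact A K) :=
  (eqv_assoc₃ κ A A).inv.comp (eqv_kR κ μ[A])

end eqv

end Vale.Agent.P241.EX
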