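import Vale.Agent.P241.EX.CofA
import Vale.Agent.P241.EX.StageA

/-!
# P241, block EX: the map `θ : C ⟶ E ⊗ MU`, `q ≫ θ = inrM`
-/

open CategoryTheory MonoidalCategory Limits Pretriangulated MonObj

set_option linter.unusedSectionVars false

universe v u

namespace Vale.Agent.P241.EX

open Vale.Agent.P251.T Vale.Agent.P251.M Vale.Agent.P251.M.EvenSpheres Vale.Agent.P251.S
  Vale.Agent.P251.F Vale.Agent.P251.I Vale.Agent.P251.X

section gen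

variable {T : Type u} [Category.{v} T] [Preadditive T] [HasZeroObject T] [HasShift T ℤ]
  [∀ n : ℤ, (shiftFunctor T n).Additive] [Pretriangulated T]
  [MonoidalCategory T] [SymmetricCategory T] [TensorTriangulated T]
  {P R Z C : T} [MonObj P] [MonObj R] [IsCommMonObj R] (d : StepD P R Z C)

theorem exists_theta {E : T} [MonObj E] (hv : d.v ≫ inrM E R = 0)
    (V : ∀ f : (R ⊗ (R ⊗ Z))⟦(1 : ℤ)⟧ ⟶ E ⊗ R, f = 0) :
    ∃ θ : C ⟶ E ⊗ R, d.q ≫ θ = inrM E R ∧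
      d.a ≫ θ = (inrM E R ⊗ₘ θ) ≫ μ[E ⊗ R] := by
  have h0 : (R ◁ d.v ≫ μ[R]) ≫ inrM E R = 0 := by
    have h1 : R ◁ d.v ≫ (inrM E R ⊗ₘ inrM E R) = 0 := by
      rw [← id_tensorHom, tensorHom_comp_tensorHom, hv, MonoidalCategory.tensorHom_def,
        MonoidalPreadditive.whiskerLeft_zero, comp_zero]
    rw [Category.assoc, IsMonHom.mul_hom, reassoc_of% h1, zero_comp]
  obtain ⟨θ, hθ⟩ := yex2 d.dist (inrM E R) h0
  refine ⟨θ, hθ.symm, ?_⟩
  apply d.dist_ext₂ V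
  have h2 : R ◁ d.q ≫ (inrM E R ⊗ₘ θ) = (inrM E R ⊗ₘ inrM E R) := by
    rw [← id_tensorHom, tensorHom_comp_tensorHom, Category.id_comp, ← hθ]
  rw [d.q_a_assoc, ← hθ, reassoc_of% h2, IsMonHom.mul_hom]

omit [IsCommMonObj R] in
theorem theta_counit {E : T} [MonObj E] (V : ∀ f : (R ⊗ Z)⟦(1 : ℤ)⟧ ⟶ E, f = 0)
    {θ : C ⟶ E ⊗ R} (hθ : d.q ≫ θ = inrM E R) (g : R ⟶ E) (w : C ⟶ E) (hw : d.q ≫ w = g) :
    θ ≫ E ◁ g ≫ μ[E] = w := by
  apply d.dist_ext V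
  rw [hw, reassoc_of% hθ]
  unfold inrM
  rw [Category.assoc, ← whisker_exchange_assoc, MonObj.one_mul, leftUnitor_naturality,
    Iso.inv_hom_id_assoc]

end gen

end Vale.Agent.P241.EX
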