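import Vale.Agent.P241.EX.Theta
import Vale.Agent.P241.EX.BaseB
import Vale.Agent.P241.EX.AD
import Vale.Agent.P241.H24.NoDerStep
import Vale.Agent.P241.EX.Core

/-!
# P241, block EX: the step, from the homotopy of `A ⊗ C` to the next stage
-/

open CategoryTheory MonoidalCategory Limits Pretriangulated MonObj

set_option linter.unusedSectionVars false

universe v u

namespace Vale.Agent.P241.EX

open Vale.Agent.P251.T Vale.Agent.P251.M Vale.Agent.P251.M.EvenSpheres Vale.Agent.P251.S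
  Vale.Agent.P251.F Vale.Agent.P251.I Vale.Agent.P251.Z Vale.Agent.P251.H Vale.Agent.P251.X
  Vale.Agent.P093.N0

variable {T : Type u} [Category.{v} T] [Preadditive T] [HasZeroObject T]
    [HasShift T ℤ] [∀ n : ℤ, (shiftFunctor T n).Additive] [Pretriangulated T] [IsTriangulated T]
    [MonoidalCategory T] [SymmetricCategory T] [TensorTriangulated T] [MonoidalClosed T]
    [HasCoproducts.{0} T] [HasProducts.{0} T] [StableCat T] {D : MUData T}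

/-- the structure map of `A ⊗ C` -/
def ioC {A C : T} {k : ℕ} (io : Am D.R k ⟶ A) (q : D.R ⟶ C) : Am D.R (k + 1) ⟶ A ⊗ C := io ⊗ₘ q

/-- The step. -/
theorem mk_AD {F : SpaceFunctor T} {e : F.S.obj CCF ≅ (stdEven T).L} (H : MUUniv e D)
    {p k : ℕ} [Fact p.Prime] {A C : T} [MonObj A] (io : Am D.R k ⟶ A) [IsMonHom io]
    (cen : (β_ (Am D.R k) A).hom ≫ A ◁ io ≫ μ[A] = io ▷ A ≫ μ[A])
    (co : A ⟶ A ⊗ Am D.R k)
    (co_lin : io ▷ A ≫ μ[A] ≫ co = (inrM A (Am D.R k) ⊗ₘ co) ≫ μ[A ⊗ Am D.R k])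
    (co_counit : co ≫ A ◁ io ≫ μ[A] = 𝟙 A) (hN : NoDer OddS io)
    (d : StepD A D.R ((stdEven T).S ((p ^ k : ℤ) - 1)) C) (hdv : d.v = D.vel p k)
    (V3 : ∀ f : ((D.R ⊗ D.R) ⊗ (D.R ⊗ (stdEven T).S ((p ^ k : ℤ) - 1)))⟦(1 : ℤ)⟧ ⟶ A ⊗ C, f = 0)
    (VZ : ∀ f : ((stdEven T).S ((p ^ k : ℤ) - 1) ⊗
      (D.R ⊗ (stdEven T).S ((p ^ k : ℤ) - 1)))⟦(1 : ℤ)⟧ ⟶ A ⊗ C, f = 0)
    (hodd : Odd0 (A ⊗ C))
    (hsk : ∀ [MonObj (A ⊗ C)] [IsMonHom (A ◁ d.q)] [IsMonHom (ioC io d.q)],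
      (Function.Surjective fun z : Cob Laz k =>
        HRing.map (E := stdEven T) (ioC io d.q) (D.ev k z)) ∧
      ∀ z : Cob Laz k, HRing.map (E := stdEven T) (ioC io d.q) (D.ev k z) = 0 ↔
          z ∈ CI p (k + 1) k) :
    ∃ Q : AD D p k, NoDer OddS Q.io := by
  obtain ⟨h⟩ := exists_twProd (cdata d V3) (cdata_van d V3 VZ hodd) io cen hN
  have hq : D.R ◁ d.q ≫ d.a = μ[D.R] ≫ d.q := d.q_a
  change TwProd A d.a d.q at h
  let _ : MonObj (A ⊗ C) := h.mon hq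
  have i1 : IsMonHom (A ◁ d.q) := h.isMonHom_whiskerLeft hq
  have i2 : IsMonHom (ioC io d.q) := h.isMonHom_tmul hq io
  have hcen := h.central_tmul hq cen
  obtain ⟨hs, hk⟩ := hsk
  -- the structure map
  let io' : Am D.R (k + 1) ⟶ A ⊗ C := ioC io d.q
  have i3 : IsMonHom io' := i2
  have hk1 : ∀ z : Cob Laz (k + 1),
      HRing.map (E := stdEven T) (ioR io') (D.ev (k + 1) z) = 0 ↔ z ∈ CI p (k + 1) (k + 1) :=
    Lam_eq_zero_iff io' H hk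
  have hv : d.v ≫ inrM (A ⊗ C) D.R = 0 := by
    rw [hdv, ← v_last_ioR io']
    exact vel_io_eq_zero (ioR io') hk1 (Nat.lt_succ_self k) _
  obtain ⟨θ, hθ, hθl⟩ := exists_theta d hv (V2_of_odd H
    ((ModStr.self ((A ⊗ C) ⊗ D.R)).restr (inrM (A ⊗ C) D.R)) (odd_R H (u0 io') hodd) _)
  have hθc : θ ≫ (A ⊗ C) ◁ inrE A d.q ≫ μ[A ⊗ C] = FM.unit A C :=
    theta_counit d d.V1 hθ _ _ rfl
  obtain ⟨co', hco1, hco2⟩ := exists_co h hq io cen co co_lin co_counit θ hθl hθc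
  exact ⟨{ A := A ⊗ C
           io := io'
           central := hcen
           odd := hodd
           surj := hs
           ker := hk
           co := co'
           co_lin := hco1
           co_counit := hco2 }, H24.noDer_step (cdata d V3) (oddS_self _) hN h⟩

/-- **The induction step.** -/
theorem exists_AD_succ {F : SpaceFunctor T} {e : F.S.obj CCF ≅ (stdEven T).L} (H : MUUniv e D)
    {p k : ℕ} [Fact p.Prime] (Q : AD D p k) (hN : NoDer OddS Q.io) :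
    ∃ Q : AD D p (k + 1), NoDer OddS Q.io := by
  obtain ⟨C, q, δ, hC⟩ := distinguished_cocone_triangle (D.R ◁ D.vel p (k + 1) ≫ μ[D.R])
  have hodd : Odd0 (Q.A ⊗ C) := odd_cof_A Q.io Q.ker H Q.surj q δ hC Q.odd
  let M := (ModStr.free Q.A C).restr (u0 Q.io)
  let d : StepD Q.A D.R ((stdEven T).S ((p ^ (k + 1) : ℤ) - 1)) C :=
    { v := D.vel p (k + 1)
      q := q
      δ := δ
      dist := hC
      inv := inv_A Q.io Q.ker H
      V1 := V1_of_odd H M hodd _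
      V2 := V2_of_odd H ((ModStr.free (Q.A ⊗ D.R) C).restr (inrM Q.A D.R))
        (odd_tensor_R H (u0 Q.io) hodd) _ }
  refine mk_AD H Q.io Q.central Q.co Q.co_lin Q.co_counit hN d rfl (V3_of_odd H M hodd _)
    (VZ_of_odd H M hodd _) hodd ?_
  intro _ _ _
  have h1 : ioC Q.io q = ioR Q.io ≫ Q.A ◁ q :=
    MonoidalCategory.tensorHom_def _ _
  refine ⟨?_, fun z => ?_⟩
  · have h2 := surj_ev_cof_A Q.io H Q.surj q δ hC Q.odd
    intro y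
    obtain ⟨z, hz⟩ := h2 y
    exact ⟨z, (congrArg (fun f => f (D.ev (k + 1) z)) (HRing_map_congr h1)).trans hz⟩
  · have h2 := ker_cof_A Q.io Q.ker H Q.surj q δ hC z
    rw [← h2]
    exact iff_of_eq (congrArg (· = 0)
      (congrArg (fun f => f (D.ev (k + 1) z)) (HRing_map_congr h1)))

/-- **The base.** -/
theorem exists_AD_zero {F : SpaceFunctor T} {e : F.S.obj CCF ≅ (stdEven T).L} (H : MUUniv e D)
    (HA : MUAll D) (p : ℕ) [Fact p.Prime] : ∃ Q : AD D p 0, NoDer OddS Q.io := by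
  obtain ⟨M, iM, δM, hM⟩ := distinguished_cocone_triangle ((p : ℤ) • 𝟙 (𝟙_ T))
  have hodd := odd0_unit HA hM
  let N := modOfIso (ModStr.free D.R M) (λ_ (D.R ⊗ M)).symm
  refine mk_AD (k := 0) (A := 𝟙_ T) (C := D.R ⊗ M) H (𝟙 (𝟙_ T)) ?_ (inrM (𝟙_ T) (𝟙_ T)) ?_ ?_ ?_
    (step0 HA hM H) rfl (V3_of_odd H N hodd _) (VZ_of_odd H N hodd _) hodd ?_
  · change (β_ (𝟙_ T) (𝟙_ T)).hom ≫ 𝟙_ T ◁ 𝟙 (𝟙_ T) ≫ μ[𝟙_ T] = 𝟙 (𝟙_ T) ▷ 𝟙_ T ≫ μ[𝟙_ T]
    rw [MonoidalCategory.whiskerLeft_id, id_whiskerRight, Category.id_comp, IsCommMonObj.mul_comm]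
  · change 𝟙 (𝟙_ T) ▷ 𝟙_ T ≫ μ[𝟙_ T] ≫ inrM (𝟙_ T) (𝟙_ T) =
      (inrM (𝟙_ T) (𝟙_ T) ⊗ₘ inrM (𝟙_ T) (𝟙_ T)) ≫ μ[𝟙_ T ⊗ 𝟙_ T]
    rw [id_whiskerRight, Category.id_comp, IsMonHom.mul_hom]
  · change inrM (𝟙_ T) (𝟙_ T) ≫ 𝟙_ T ◁ 𝟙 (𝟙_ T) ≫ μ[𝟙_ T] = 𝟙 (𝟙_ T)
    rw [MonoidalCategory.whiskerLeft_id, Category.id_comp]
    unfold inrM
    rw [Category.assoc, MonObj.one_mul, Iso.inv_hom_id]
  · intro M X l _ d _ h
    change 𝟙 (𝟙_ T) ▷ X ≫ d = 0 at h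
    rwa [id_whiskerRight, Category.id_comp] at h
  · intro _ _ i
    have i' : IsMonHom (io0 D iM) := i
    exact ⟨surj_io0 HA hM, ker_io0 HA hM⟩

/-- **The tower.** -/
theorem exists_AD' {F : SpaceFunctor T} {e : F.S.obj CCF ≅ (stdEven T).L} (H : MUUniv e D)
    (HA : MUAll D) (p : ℕ) [Fact p.Prime] : ∀ k, ∃ Q : AD D p k, NoDer OddS Q.io
  | 0 => exists_AD_zero H HA p
  | k + 1 => by
    obtain ⟨Q, hQ⟩ := exists_AD' H HA p k
    exact exists_AD_succ H Q hQ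

/-- **The associative monoids `A_n = C_0 ⊗ … ⊗ C_{n-1}` exist, at every prime.** -/
theorem exists_AD {F : SpaceFunctor T} {e : F.S.obj CCF ≅ (stdEven T).L} (H : MUUniv e D)
    (HA : MUAll D) (p : ℕ) [Fact p.Prime] (k : ℕ) : Nonempty (AD D p k) := by
  obtain ⟨Q, -⟩ := exists_AD' H HA p k
  exact ⟨Q⟩

end Vale.Agent.P241.EX
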