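import Vale.Agent.P241.EX.Avg
import Vale.Agent.P241.EX.Sw

/-!
# P241, block EX: transfer of equations along `CData.ext` and `CData.avg`

`Tr b j s H` : the equation `H (k, j y) = b (H (k, s y))`.  It holds for `d.ext l g` if and only
if it holds for `g`.
-/

open CategoryTheory MonoidalCategory MonObj

set_option linter.unusedSectionVars false

universe v u

namespace Vale.Agent.P241.EX

open Vale.Agent.P251.M Vale.Agent.P251.S Vale.Agent.P251.X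

variable {T : Type u} [Category.{v} T] [Preadditive T] [MonoidalCategory T]
  [MonoidalPreadditive T] [SymmetricCategory T]

section mod

variable {A R M : T} [MonObj A] [MonObj R] (l : ModStr (A ⊗ R) M)

/-- the action of `R` commutes with itself -/
theorem rho_rho [IsCommMonObj R] : R ◁ rho l ≫ rho l = sw R R M ≫ R ◁ rho l ≫ rho l := by
  have h1 : R ◁ rho l ≫ rho l = (α_ R R M).inv ≫ μ[R] ▷ M ≫ rho l := by
    rw [rho_mul, Iso.inv_hom_id_assoc]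
  rw [h1]
  unfold sw
  simp only [Category.assoc, Iso.hom_inv_id_assoc]
  rw [← comp_whiskerRight_assoc, IsCommMonObj.mul_comm]

theorem inrM_inlM_mul (A R : T) [MonObj A] [MonObj R] :
    (inrM A R ⊗ₘ inlM A R) ≫ μ[A ⊗ R] = (β_ R A).hom := by
  change (((λ_ R).inv ≫ η[A] ▷ R) ⊗ₘ ((ρ_ A).inv ≫ A ◁ η[R])) ≫ tensorμ A R A R ≫
    (μ[A] ⊗ₘ μ[R]) = _
  rw [← tensorHom_comp_tensorHom, Category.assoc, ← tensorHom_id, ← id_tensorHom,
    tensorμ_natural_assoc, tensorHom_comp_tensorHom, tensorHom_id, id_tensorHom,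
    MonObj.one_mul, MonObj.mul_one]
  unfold tensorμ
  monoidal

/-- the actions of `R` and `A` commute -/
theorem lam_rho : R ◁ lam l ≫ rho l = sw R A M ≫ A ◁ rho l ≫ lam l := by
  have h1 : R ◁ lam l ≫ rho l =
      (α_ R A M).inv ≫ ((inrM A R ⊗ₘ inlM A R) ≫ μ[A ⊗ R]) ▷ M ≫ l.act := by
    rw [comp_whiskerRight, Category.assoc, l.mul_act]
    unfold rho lam
    rw [tensorHom_def', comp_whiskerRight, Category.assoc, associator_naturality_left_assoc,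
      associator_naturality_middle_assoc, Iso.inv_hom_id_assoc,
      MonoidalCategory.whiskerLeft_comp, Category.assoc, whisker_exchange_assoc]
  have h2 : A ◁ rho l ≫ lam l = (α_ A R M).inv ≫ l.act := by
    rw [act_eq, Iso.inv_hom_id_assoc]
  rw [h1, h2, inrM_inlM_mul]
  unfold sw
  simp only [Category.assoc, Iso.hom_inv_id_assoc]

theorem rho_lam : A ◁ rho l ≫ lam l = sw A R M ≫ R ◁ lam l ≫ rho l := by
  rw [lam_rho, sw_sw_assoc]

/-- the action of `R` commutes with the action of `A ⊗ R` -/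
theorem rho_act [IsCommMonObj R] :
    (A ⊗ R) ◁ rho l ≫ l.act = sw (A ⊗ R) R M ≫ R ◁ l.act ≫ rho l := by
  have h1 : (A ⊗ R) ◁ rho l ≫ l.act =
      (α_ A R (R ⊗ M)).hom ≫ A ◁ (R ◁ rho l ≫ rho l) ≫ lam l := by
    rw [act_eq, associator_naturality_right_assoc, MonoidalCategory.whiskerLeft_comp,
      Category.assoc]
  rw [h1, rho_rho]
  simp only [MonoidalCategory.whiskerLeft_comp, Category.assoc]
  rw [rho_lam, sw_nat₃_assoc, ← MonoidalCategory.whiskerLeft_comp_assoc, sw_tensor₁_assoc, act_eq]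
  simp only [MonoidalCategory.whiskerLeft_comp, Category.assoc]

end mod

/-- `b` commutes with `k`: an auxiliary computation -/
theorem comm_aux {C P Y M B X : T} (s : C ⟶ P ⊗ Y) (k : P ⊗ M ⟶ M) (b : B ⊗ M ⟶ M)
    (hb : P ◁ b ≫ k = sw P B M ≫ B ◁ k ≫ b) (f : Y ⊗ X ⟶ M) :
    s ▷ (B ⊗ X) ≫ (α_ P Y (B ⊗ X)).hom ≫ P ◁ (sw Y B X ≫ B ◁ f ≫ b) ≫ k =
      sw C B X ≫ B ◁ (s ▷ X ≫ (α_ P Y X).hom ≫ P ◁ f ≫ k) ≫ b := by
  simp only [MonoidalCategory.whiskerLeft_comp, Category.assoc]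
  rw [hb, sw_nat₃_assoc, sw_tensor₁_assoc, sw_nat₁_assoc]

/-- the equation `H (k, j y) = b (H (k, s y))` -/
def Tr {V M K X Y : T} (b : V ⊗ M ⟶ M) (j : Y ⟶ X) (s : Y ⟶ V ⊗ X) (H : K ⊗ X ⟶ M) : Prop :=
  K ◁ j ≫ H = K ◁ s ≫ sw K V X ≫ V ◁ H ≫ b

theorem tr_iff_eqv {R K M X : T} {κ : R ⊗ X ⟶ X} {r : R ⊗ M ⟶ M} {H : K ⊗ X ⟶ M} :
    Tr r κ (𝟙 _) H ↔ Eqv (kR K κ) r H := by
  unfold Tr Eqv kR
  rw [MonoidalCategory.whiskerLeft_id, Category.id_comp, Category.assoc]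
  constructor
  · intro h
    rw [h, sw_sw_assoc]
  · intro h
    rw [← h, sw_sw_assoc]

namespace CData

variable {A R C Z S : T} [MonObj A] [MonObj R] (d : CData A R C Z S)

section

variable {M X : T} (l : ModStr (A ⊗ R) M)

theorem lin_iff_eqv (f : C ⊗ X ⟶ M) : d.Lin l f ↔ Eqv (kL d.act X) (rho l) f := by
  rw [lin_iff]
  unfold Eqv kL
  rw [Category.assoc, Iso.inv_comp_eq]

theorem ext_comm {B : T} (b : B ⊗ M ⟶ M) (hb : R ◁ b ≫ rho l = sw R B M ≫ B ◁ rho l ≫ b)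
    (g : (Z ⊗ S) ⊗ X ⟶ M) :
    d.ext l (sw (Z ⊗ S) B X ≫ B ◁ g ≫ b) = sw C B X ≫ B ◁ d.ext l g ≫ b :=
  comm_aux d.δ (rho l) b hb g

theorem avg_comm {B : T} (b : B ⊗ M ⟶ M)
    (hb : (A ⊗ R) ◁ b ≫ l.act = sw (A ⊗ R) B M ≫ B ◁ l.act ≫ b) (f : C ⊗ X ⟶ M) :
    d.avg l (sw C B X ≫ B ◁ f ≫ b) = sw C B X ≫ B ◁ d.avg l f ≫ b :=
  comm_aux d.t l.act b hb f

theorem ext_nat {Y : T} (j : Y ⟶ X) (g : (Z ⊗ S) ⊗ X ⟶ M) :
    C ◁ j ≫ d.ext l g = d.ext l ((Z ⊗ S) ◁ j ≫ g) := by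
  unfold ext
  rw [whisker_exchange_assoc, associator_naturality_right_assoc,
    MonoidalCategory.whiskerLeft_comp_assoc]

theorem avg_nat {Y : T} (j : Y ⟶ X) (f : C ⊗ X ⟶ M) :
    C ◁ j ≫ d.avg l f = d.avg l (C ◁ j ≫ f) := by
  unfold avg
  rw [whisker_exchange_assoc, associator_naturality_right_assoc,
    MonoidalCategory.whiskerLeft_comp_assoc]

theorem ext_zero : d.ext l (0 : (Z ⊗ S) ⊗ X ⟶ M) = 0 := by
  unfold ext
  rw [MonoidalPreadditive.whiskerLeft_zero, Limits.zero_comp, Limits.comp_zero, Limits.comp_zero]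

theorem tr_of_ext (hv : d.v ▷ M ≫ rho l = 0) {V Y : T} (b : V ⊗ M ⟶ M)
    (hb : R ◁ b ≫ rho l = sw R V M ≫ V ◁ rho l ≫ b) (j : Y ⟶ X) (s : Y ⟶ V ⊗ X)
    (g : (Z ⊗ S) ⊗ X ⟶ M) (h : Tr b j s (d.ext l g)) : Tr b j s g := by
  unfold Tr at *
  rw [ext_nat, ← ext_comm d l b hb, ext_nat] at h
  exact d.ext_injective l hv h

theorem eqv_of_ext [IsCommMonObj R] (hv : d.v ▷ M ≫ rho l = 0) {κ : R ⊗ X ⟶ X}
    (g : (Z ⊗ S) ⊗ X ⟶ M) (h : Eqv (kR C κ) (rho l) (d.ext l g)) :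
    Eqv (kR (Z ⊗ S) κ) (rho l) g :=
  tr_iff_eqv.1 (d.tr_of_ext l hv (rho l) (rho_rho l) κ (𝟙 _) g (tr_iff_eqv.2 h))

theorem zero_of_ext (hv : d.v ▷ M ≫ rho l = 0) {Y : T} (j : Y ⟶ X)
    (g : (Z ⊗ S) ⊗ X ⟶ M) (h : C ◁ j ≫ d.ext l g = 0) : (Z ⊗ S) ◁ j ≫ g = 0 := by
  rw [ext_nat] at h
  exact d.ext_inj l hv _ h

/-- the average is linear in the parameter -/
theorem avg_eqv [IsCommMonObj R] {κ : R ⊗ X ⟶ X} (f : C ⊗ X ⟶ M)
    (h : Eqv (kR C κ) (rho l) f) : Eqv (kR C κ) (rho l) (d.avg l f) := by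
  rw [← tr_iff_eqv] at *
  unfold Tr at *
  rw [avg_nat, h, MonoidalCategory.whiskerLeft_id, Category.id_comp, Category.id_comp,
    d.avg_comm l (rho l) (rho_act l)]

end

end CData

end Vale.Agent.P241.EX
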